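import Mathlib

/-!
The algebra used against the finitistic dimension conjecture: generators, relations, finiteness.
-/

set_option linter.unusedSectionVars false
set_option linter.unusedSimpArgs false
set_option linter.unusedTactic false
set_option linter.unreachableTactic false

namespace Vale.Agent.P176

open Finset

/-- Generators: six idempotents, four odd arrows, the differential, two families of back arrows. -/
inductive Gen
  | e (i : Fin 6)
  | th (r : Fin 4)
  | d
  | ra (v : Fin 2)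
  | rb (v : Fin 2)

section Pred

variable {B : Type*} [Ring B]

/-- Extend a family on `Fin 6` by zero. -/
def ex (e : Fin 6 → B) (n : ℕ) : B := if h : n < 6 then e ⟨n, h⟩ else 0

/-- The quadratic part of the differential. -/
def Q (th : Fin 4 → B) : Fin 4 → B :=
  ![-(th 1 * th 2), -(th 0 * th 1) - th 1 * th 3, th 0 * th 2 + th 2 * th 3, th 1 * th 2]

/-- Relations of the window algebra. -/
structure IsK (e : Fin 6 → B) (th : Fin 4 → B) (d : B) : Prop where
  orth : ∀ i j, e i * e j = if i = j then e i else 0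
  total : ∑ i, e i = 1
  th_e : ∀ r (i : Fin 6), th r * e i = ex e (i + 1) * th r
  d_e : ∀ i : Fin 6, d * e i = ex e (i + 1) * d
  anti : ∀ r s, th r * th s = -(th s * th r)
  sq : ∀ r, th r * th r = 0
  dd : d * d = 0
  d_th : ∀ r, d * th r = Q th r - th r * d

/-- All relations. -/
structure IsA (f : Gen → B) : Prop where
  isK : IsK (fun i => f (.e i)) (fun r => f (.th r)) (f .d)
  ra_e : ∀ v (i : Fin 6), f (.ra v) * f (.e i) = if i = 0 then 0 else f (.e i) * f (.ra v)
  rb_e : ∀ v (i : Fin 6), f (.rb v) * f (.e i) =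
    if i = 0 then 0 else ex (fun j => f (.e j)) (i - 1) * f (.rb v)
  th_ra : ∀ r v, f (.th r) * f (.ra v) = -(f (.ra v) * f (.th r))
  th_rb : ∀ r v, f (.th r) * f (.rb v) = f (.rb v) * f (.th r) +
    (![![0, -f (.ra 1)], ![0, f (.ra 0)], ![f (.ra 1), 0], ![-f (.ra 0), 0]] :
      Fin 4 → Fin 2 → B) r v
  d_ra0 : f .d * f (.ra 0) = -(f (.ra 0) * (f .d - f (.th 0))) + f (.ra 1) * f (.th 1)
  d_ra1 : f .d * f (.ra 1) = -(f (.ra 1) * (f .d - f (.th 3))) + f (.ra 0) * f (.th 2)
  d_rb0 : f .d * f (.rb 0) = f (.rb 0) * (f .d - f (.th 0)) - f (.rb 1) * f (.th 1)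
  d_rb1 : f .d * f (.rb 1) = f (.rb 1) * (f .d - f (.th 3)) - f (.rb 0) * f (.th 2)
  aa : ∀ v w, f (.ra v) * f (.ra w) = 0
  ab : ∀ v w, f (.ra v) * f (.rb w) = 0
  ba : ∀ v w, f (.rb v) * f (.ra w) = 0
  bb : ∀ v w, f (.rb v) * f (.rb w) = 0

end Pred

/-- The relation on the free algebra: equal under every assignment satisfying the relations. -/
def Rel (a b : FreeAlgebra ℚ Gen) : Prop :=
  ∀ (B : Type) [Ring B] [Algebra ℚ B] (f : Gen → B), IsA f →
    FreeAlgebra.lift ℚ f a = FreeAlgebra.lift ℚ f b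

/-- The algebra. -/
def A : Type := RingQuot Rel

noncomputable instance : Ring A := inferInstanceAs (Ring (RingQuot Rel))

noncomputable instance : Algebra ℚ A := inferInstanceAs (Algebra ℚ (RingQuot Rel))

/-- The projection from the free algebra. -/
noncomputable def proj : FreeAlgebra ℚ Gen →ₐ[ℚ] A := RingQuot.mkAlgHom ℚ Rel

theorem proj_surjective : Function.Surjective proj := RingQuot.mkAlgHom_surjective ℚ Rel

/-- The generators inside `A`. -/
noncomputable def g (x : Gen) : A := proj (FreeAlgebra.ι ℚ x)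

/-- The universal map. -/
noncomputable def liftA {B : Type} [Ring B] [Algebra ℚ B] (f : Gen → B) (h : IsA f) : A →ₐ[ℚ] B :=
  RingQuot.liftAlgHom ℚ ⟨FreeAlgebra.lift ℚ f, fun _ _ hr => hr B f h⟩

@[simp] theorem liftA_g {B : Type} [Ring B] [Algebra ℚ B] (f : Gen → B) (h : IsA f) (x : Gen) :
    liftA f h (g x) = f x := by
  show RingQuot.liftAlgHom ℚ _ (RingQuot.mkAlgHom ℚ Rel (FreeAlgebra.ι ℚ x)) = f x
  simp

theorem eq_of_rel {a b : FreeAlgebra ℚ Gen} (h : Rel a b) : proj a = proj b :=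
  RingQuot.mkAlgHom_rel ℚ h

section Gens

theorem map_ex {B C : Type*} [Ring B] [Ring C] (φ : B →+* C) (e : Fin 6 → B) (n : ℕ) :
    φ (ex e n) = ex (fun i => φ (e i)) n := by
  simp only [ex]
  split <;> simp

theorem map_Q {B C : Type*} [Ring B] [Ring C] (φ : B →+* C) (t : Fin 4 → B) (r : Fin 4) :
    φ (Q t r) = Q (fun i => φ (t i)) r := by
  fin_cases r <;> simp [Q]

theorem g_isA : IsA g := by
  have H : ∀ a b : FreeAlgebra ℚ Gen, Rel a b → proj a = proj b := fun a b => eq_of_rel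
  refine
    { isK :=
      { orth := fun i j => ?_
        total := ?_
        th_e := fun r i => ?_
        d_e := fun i => ?_
        anti := fun r s => ?_
        sq := fun r => ?_
        dd := ?_
        d_th := fun r => ?_ }
      ra_e := fun v i => ?_
      rb_e := fun v i => ?_
      th_ra := fun r v => ?_
      th_rb := fun r v => ?_
      d_ra0 := ?_
      d_ra1 := ?_
      d_rb0 := ?_
      d_rb1 := ?_
      aa := fun v w => ?_
      ab := fun v w => ?_
      ba := fun v w => ?_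
      bb := fun v w => ?_ }
  · have := H (FreeAlgebra.ι ℚ (.e i) * FreeAlgebra.ι ℚ (.e j))
      (if i = j then FreeAlgebra.ι ℚ (.e i) else 0)
      (fun B _ _ f h => by have := h.isK.orth i j; split <;> simp_all)
    split <;> simp_all [g]
  · have := H (∑ i, FreeAlgebra.ι ℚ (.e i)) 1
      (fun B _ _ f h => by simpa using h.isK.total)
    simpa [g] using this
  · have := H (FreeAlgebra.ι ℚ (.th r) * FreeAlgebra.ι ℚ (.e i))
      (ex (fun j => FreeAlgebra.ι ℚ (.e j)) (i + 1) * FreeAlgebra.ι ℚ (.th r))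
      (fun B _ _ f h => by
        simpa [map_ex (FreeAlgebra.lift ℚ f).toRingHom, ex, apply_dite] using h.isK.th_e r i)
    simpa [g, ex, apply_dite] using this
  · have := H (FreeAlgebra.ι ℚ .d * FreeAlgebra.ι ℚ (.e i))
      (ex (fun j => FreeAlgebra.ι ℚ (.e j)) (i + 1) * FreeAlgebra.ι ℚ .d)
      (fun B _ _ f h => by simpa [ex, apply_dite] using h.isK.d_e i)
    simpa [g, ex, apply_dite] using this
  · have := H (FreeAlgebra.ι ℚ (.th r) * FreeAlgebra.ι ℚ (.th s))
      (-(FreeAlgebra.ι ℚ (.th s) * FreeAlgebra.ι ℚ (.th r)))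
      (fun B _ _ f h => by simpa using h.isK.anti r s)
    simpa [g] using this
  · have := H (FreeAlgebra.ι ℚ (.th r) * FreeAlgebra.ι ℚ (.th r)) 0
      (fun B _ _ f h => by simpa using h.isK.sq r)
    simpa [g] using this
  · have := H (FreeAlgebra.ι ℚ .d * FreeAlgebra.ι ℚ .d) 0
      (fun B _ _ f h => by simpa using h.isK.dd)
    simpa [g] using this
  · have := H (FreeAlgebra.ι ℚ .d * FreeAlgebra.ι ℚ (.th r))
      (Q (fun s => FreeAlgebra.ι ℚ (.th s)) r - FreeAlgebra.ι ℚ (.th r) * FreeAlgebra.ι ℚ .d)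
      (fun B _ _ f h => by
        have := h.isK.d_th r
        fin_cases r <;> simpa [Q] using this)
    fin_cases r <;> simpa [g, Q] using this
  · have := H (FreeAlgebra.ι ℚ (.ra v) * FreeAlgebra.ι ℚ (.e i))
      (if i = 0 then 0 else FreeAlgebra.ι ℚ (.e i) * FreeAlgebra.ι ℚ (.ra v))
      (fun B _ _ f h => by have := h.ra_e v i; split <;> simp_all)
    split <;> simp_all [g]
  · have := H (FreeAlgebra.ι ℚ (.rb v) * FreeAlgebra.ι ℚ (.e i))
      (if i = 0 then 0 else ex (fun j => FreeAlgebra.ι ℚ (.e j)) (i - 1) * FreeAlgebra.ι ℚ (.rb v))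
      (fun B _ _ f h => by simpa [ex, apply_dite, apply_ite] using h.rb_e v i)
    simpa [g, ex, apply_dite, apply_ite] using this
  · have := H (FreeAlgebra.ι ℚ (.th r) * FreeAlgebra.ι ℚ (.ra v))
      (-(FreeAlgebra.ι ℚ (.ra v) * FreeAlgebra.ι ℚ (.th r)))
      (fun B _ _ f h => by simpa using h.th_ra r v)
    simpa [g] using this
  · have := H (FreeAlgebra.ι ℚ (.th r) * FreeAlgebra.ι ℚ (.rb v))
      (FreeAlgebra.ι ℚ (.rb v) * FreeAlgebra.ι ℚ (.th r) +
        (![![0, -FreeAlgebra.ι ℚ (.ra 1)], ![0, FreeAlgebra.ι ℚ (.ra 0)],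
          ![FreeAlgebra.ι ℚ (.ra 1), 0], ![-FreeAlgebra.ι ℚ (.ra 0), 0]] :
          Fin 4 → Fin 2 → FreeAlgebra ℚ Gen) r v)
      (fun B _ _ f h => by
        have := h.th_rb r v
        fin_cases r <;> fin_cases v <;> simpa using this)
    fin_cases r <;> fin_cases v <;> simpa [g] using this
  · have := H (FreeAlgebra.ι ℚ .d * FreeAlgebra.ι ℚ (.ra 0))
      (-(FreeAlgebra.ι ℚ (.ra 0) * (FreeAlgebra.ι ℚ .d - FreeAlgebra.ι ℚ (.th 0))) +
        FreeAlgebra.ι ℚ (.ra 1) * FreeAlgebra.ι ℚ (.th 1))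
      (fun B _ _ f h => by simpa using h.d_ra0)
    simpa [g] using this
  · have := H (FreeAlgebra.ι ℚ .d * FreeAlgebra.ι ℚ (.ra 1))
      (-(FreeAlgebra.ι ℚ (.ra 1) * (FreeAlgebra.ι ℚ .d - FreeAlgebra.ι ℚ (.th 3))) +
        FreeAlgebra.ι ℚ (.ra 0) * FreeAlgebra.ι ℚ (.th 2))
      (fun B _ _ f h => by simpa using h.d_ra1)
    simpa [g] using this
  · have := H (FreeAlgebra.ι ℚ .d * FreeAlgebra.ι ℚ (.rb 0))
      (FreeAlgebra.ι ℚ (.rb 0) * (FreeAlgebra.ι ℚ .d - FreeAlgebra.ι ℚ (.th 0)) -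
        FreeAlgebra.ι ℚ (.rb 1) * FreeAlgebra.ι ℚ (.th 1))
      (fun B _ _ f h => by simpa using h.d_rb0)
    simpa [g] using this
  · have := H (FreeAlgebra.ι ℚ .d * FreeAlgebra.ι ℚ (.rb 1))
      (FreeAlgebra.ι ℚ (.rb 1) * (FreeAlgebra.ι ℚ .d - FreeAlgebra.ι ℚ (.th 3)) -
        FreeAlgebra.ι ℚ (.rb 0) * FreeAlgebra.ι ℚ (.th 2))
      (fun B _ _ f h => by simpa using h.d_rb1)
    simpa [g] using this
  · have := H (FreeAlgebra.ι ℚ (.ra v) * FreeAlgebra.ι ℚ (.ra w)) 0
      (fun B _ _ f h => by simpa using h.aa v w)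
    simpa [g] using this
  · have := H (FreeAlgebra.ι ℚ (.ra v) * FreeAlgebra.ι ℚ (.rb w)) 0
      (fun B _ _ f h => by simpa using h.ab v w)
    simpa [g] using this
  · have := H (FreeAlgebra.ι ℚ (.rb v) * FreeAlgebra.ι ℚ (.ra w)) 0
      (fun B _ _ f h => by simpa using h.ba v w)
    simpa [g] using this
  · have := H (FreeAlgebra.ι ℚ (.rb v) * FreeAlgebra.ι ℚ (.rb w)) 0
      (fun B _ _ f h => by simpa using h.bb v w)
    simpa [g] using this

end Gens

end Vale.Agent.P176
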