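import Vale.Agent.P176.Rep

/-!
Induced modules and their universal property.
-/

set_option linter.unusedSectionVars false
set_option linter.unusedSimpArgs false
set_option linter.unusedTactic false
set_option linter.unreachableTactic false

namespace Vale.Agent.P176

/-- The assignment for the induced module. -/
def indF (Z : KRep) : Gen → Module.End ℚ (Z.V × V4 Z.V)
  | .e i => (Z.e i).prodMap (Fe Z i)
  | .th r => (Z.th r).prodMap (Fth Z r)
  | .d => Z.d.prodMap (Fd Z)
  | .ra v => LinearMap.prod 0 ((![mk4 (LinearMap.fst ℚ _ _) 0 0 0, mk4 0 (LinearMap.fst ℚ _ _) 0 0] :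
      Fin 2 → _) v)
  | .rb v => LinearMap.prod 0 ((![mk4 0 0 (LinearMap.fst ℚ _ _) 0, mk4 0 0 0 (LinearMap.fst ℚ _ _)] :
      Fin 2 → _) v)

theorem ex_prodMap {V W : Type} [AddCommGroup V] [Module ℚ V] [AddCommGroup W] [Module ℚ W]
    (a : Fin 6 → Module.End ℚ V) (b : Fin 6 → Module.End ℚ W) (n : ℕ) (p : V × W) :
    ex (fun i => (a i).prodMap (b i)) n p = (ex a n p.1, ex b n p.2) := by
  by_cases h : n < 6 <;> simp [ex, h] <;> rfl

theorem ind_isA (Z : KRep) (h0 : Z.e 0 = 0) : IsA (indF Z) where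
  isK :=
    { orth := fun i j => by
        refine LinearMap.ext fun w => ?_
        have h1 := LinearMap.congr_fun ((F_isK Z h0).orth i j) w.2
        have h2 := Z.orth w.1 i j
        split <;> simp_all [indF]
      total := by
        refine LinearMap.ext fun w => ?_
        simp only [LinearMap.sum_apply, indF, LinearMap.prodMap_apply, Module.End.one_apply]
        refine Prod.ext ?_ ?_
        · simp [Prod.fst_sum, Z.total]
        · simpa [Prod.snd_sum] using (F Z h0).total w.2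
      th_e := fun r i => by
        refine LinearMap.ext fun w => ?_
        simp only [Module.End.mul_apply, indF, ex_prodMap, LinearMap.prodMap_apply]
        have h1 := Z.th_ex w.1 r i
        have h2 := (F Z h0).th_ex w.2 r i
        simp only [ex, Fin.is_lt, dite_true, Fin.eta] at h1 h2 ⊢
        simp [h1, h2]
      d_e := fun i => by
        refine LinearMap.ext fun w => ?_
        simp only [Module.End.mul_apply, indF, ex_prodMap, LinearMap.prodMap_apply]
        have h1 := Z.d_ex w.1 i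
        have h2 := (F Z h0).d_ex w.2 i
        simp only [ex, Fin.is_lt, dite_true, Fin.eta] at h1 h2 ⊢
        simp [h1, h2]
      anti := fun r s => by
        refine LinearMap.ext fun w => ?_
        have h1 := Z.anti w.1 r s
        have h2 := (F Z h0).anti w.2 r s
        simp_all [indF]
      sq := fun r => by
        refine LinearMap.ext fun w => ?_
        have h1 := Z.sq w.1 r
        have h2 := (F Z h0).sq w.2 r
        simp_all [indF]
      dd := by
        refine LinearMap.ext fun w => ?_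
        have h1 := Z.dd w.1
        have h2 := (F Z h0).dd w.2
        simp_all [indF]
      d_th := fun r => by
        refine LinearMap.ext fun w => ?_
        have h1 := Z.d_th w.1 r
        have h2 := (F Z h0).d_th w.2 r
        fin_cases r <;> simp_all [indF, Q] }
  ra_e v i := by
    refine LinearMap.ext fun w => ?_
    by_cases hi : i = 0
    · subst hi; fin_cases v <;> simp [indF, h0] <;> rfl
    · fin_cases v <;> simp [indF, hi, Fe]
  rb_e v i := by
    refine LinearMap.ext fun w => ?_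
    by_cases hi : i = 0
    · subst hi; fin_cases v <;> simp [indF, h0] <;> rfl
    · have hi' : (i : ℕ) ≠ 0 := fun h => hi (Fin.ext h)
      have he : (i : ℕ) - 1 + 1 = i := by omega
      fin_cases v <;>
        simp only [indF, if_neg hi, Module.End.mul_apply, ex_prodMap, Fe_ex] <;>
        simp [he, Fe_ex, ex, Fin.eta]
  th_ra r v := by
    refine LinearMap.ext fun w => ?_
    fin_cases r <;> fin_cases v <;> simp [indF, Fth]
  th_rb r v := by
    refine LinearMap.ext fun w => ?_
    fin_cases r <;> fin_cases v <;> simp [indF, Fth]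
  d_ra0 := by refine LinearMap.ext fun w => ?_; simp [indF, Fd]; abel
  d_ra1 := by refine LinearMap.ext fun w => ?_; simp [indF, Fd]; abel
  d_rb0 := by refine LinearMap.ext fun w => ?_; simp [indF, Fd]
  d_rb1 := by refine LinearMap.ext fun w => ?_; simp [indF, Fd]
  aa v w := by refine LinearMap.ext fun w' => ?_; fin_cases v <;> fin_cases w <;> simp [indF] <;> rfl
  ab v w := by refine LinearMap.ext fun w' => ?_; fin_cases v <;> fin_cases w <;> simp [indF] <;> rfl
  ba v w := by refine LinearMap.ext fun w' => ?_; fin_cases v <;> fin_cases w <;> simp [indF] <;> rfl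
  bb v w := by refine LinearMap.ext fun w' => ?_; fin_cases v <;> fin_cases w <;> simp [indF] <;> rfl

/-- The induced module. -/
noncomputable def Ind (Z : KRep) (h0 : Z.e 0 = 0) : Rep :=
  { V := Z.V × V4 Z.V, f := indF Z, h := ind_isA Z h0 }

/-- Elements of the induced module. -/
noncomputable def toInd (Z : KRep) (h0 : Z.e 0 = 0) : (Z.V × V4 Z.V) →ₗ[ℚ] (Ind Z h0).V := LinearMap.id

/-- Coordinates of an element of the induced module. -/
noncomputable def ofInd (Z : KRep) (h0 : Z.e 0 = 0) : (Ind Z h0).V →ₗ[ℚ] (Z.V × V4 Z.V) := LinearMap.id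

theorem gen_toInd (Z : KRep) (h0 : Z.e 0 = 0) (x : Gen) (p : Z.V × V4 Z.V) :
    g x • toInd Z h0 p = toInd Z h0 (indF Z x p) := Rep.gen_smul _ _ _

section Adj

variable {Z : KRep} (h0 : Z.e 0 = 0) {M : Type*} [AddCommGroup M] [Module ℚ M] [Module A M]
  [IsScalarTower ℚ A M]

/-- Conditions for a map from a window representation into a module. -/
structure IsKHom (Z : KRep) (f : Z.V →ₗ[ℚ] M) : Prop where
  he : ∀ i z, f (Z.e i z) = g (.e i) • f z
  hth : ∀ r z, f (Z.th r z) = g (.th r) • f z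
  hd : ∀ z, f (Z.d z) = g .d • f z

theorem smul_eq {a b : A} (h : a = b) (m : M) : a • m = b • m := by rw [h]

theorem e_ra_smul (i : Fin 6) (v : Fin 2) (m : M) :
    g (.e i) • g (.ra v) • m = if i = 0 then 0 else g (.ra v) • g (.e i) • m := by
  rw [← mul_smul, e_mul_ra]
  split <;> simp [mul_smul]

theorem e_rb_smul (i : Fin 6) (v : Fin 2) (m : M) :
    g (.e i) • g (.rb v) • m = g (.rb v) • ex (fun j => g (.e j)) (i + 1) • m := by
  rw [← mul_smul, e_mul_rb, mul_smul]

theorem th_ra_smul (r : Fin 4) (v : Fin 2) (m : M) :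
    g (.th r) • g (.ra v) • m = -(g (.ra v) • g (.th r) • m) := by
  rw [← mul_smul, g_isA.th_ra]
  rw [neg_smul]
  rw [mul_smul]

theorem th_rb_smul (r : Fin 4) (v : Fin 2) (m : M) :
    g (.th r) • g (.rb v) • m = g (.rb v) • g (.th r) • m +
      (![![0, -(g (.ra 1) • m)], ![0, g (.ra 0) • m], ![g (.ra 1) • m, 0],
        ![-(g (.ra 0) • m), 0]] : Fin 4 → Fin 2 → M) r v := by
  rw [← mul_smul, g_isA.th_rb, add_smul, mul_smul]
  congr 1
  fin_cases r <;> fin_cases v <;> simp <;> rw [neg_smul]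

theorem d_ra0_smul (m : M) : g .d • g (.ra 0) • m =
    -(g (.ra 0) • g .d • m) + g (.ra 0) • g (.th 0) • m + g (.ra 1) • g (.th 1) • m := by
  rw [← mul_smul, g_isA.d_ra0, add_smul]
  rw [neg_smul]
  rw [mul_sub, sub_smul, mul_smul, mul_smul, mul_smul]
  abel

theorem d_ra1_smul (m : M) : g .d • g (.ra 1) • m =
    -(g (.ra 1) • g .d • m) + g (.ra 1) • g (.th 3) • m + g (.ra 0) • g (.th 2) • m := by
  rw [← mul_smul, g_isA.d_ra1, add_smul]
  rw [neg_smul]
  rw [mul_sub, sub_smul, mul_smul, mul_smul, mul_smul]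
  abel

theorem d_rb0_smul (m : M) : g .d • g (.rb 0) • m =
    g (.rb 0) • g .d • m - g (.rb 0) • g (.th 0) • m - g (.rb 1) • g (.th 1) • m := by
  rw [← mul_smul, g_isA.d_rb0, sub_smul, mul_sub, sub_smul, mul_smul, mul_smul, mul_smul]

theorem d_rb1_smul (m : M) : g .d • g (.rb 1) • m =
    g (.rb 1) • g .d • m - g (.rb 1) • g (.th 3) • m - g (.rb 0) • g (.th 2) • m := by
  rw [← mul_smul, g_isA.d_rb1, sub_smul, mul_sub, sub_smul, mul_smul, mul_smul, mul_smul]

theorem RR_smul (v w : Fin 2) (m : M) :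
    g (.ra v) • g (.ra w) • m = 0 ∧ g (.ra v) • g (.rb w) • m = 0 ∧
      g (.rb v) • g (.ra w) • m = 0 ∧ g (.rb v) • g (.rb w) • m = 0 := by
  simp [← mul_smul, g_isA.aa, g_isA.ab, g_isA.ba, g_isA.bb]

/-- Scalar action of a generator as a rational linear map. -/
noncomputable def act (a : A) : M →ₗ[ℚ] M := DistribSMul.toLinearMap ℚ M a

@[simp] theorem act_apply (a : A) (m : M) : act a m = a • m := rfl

/-- The underlying map of the adjunction. -/
noncomputable def indLin (f : Z.V →ₗ[ℚ] M) : Z.V × V4 Z.V →ₗ[ℚ] M :=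
  f ∘ₗ LinearMap.fst ℚ _ _ +
    (act (g (.ra 0)) ∘ₗ f ∘ₗ qa0 _ + act (g (.ra 1)) ∘ₗ f ∘ₗ qa1 _ +
      act (g (.rb 0)) ∘ₗ f ∘ₗ qb0 _ + act (g (.rb 1)) ∘ₗ f ∘ₗ qb1 _) ∘ₗ LinearMap.snd ℚ _ _

theorem indLin_apply (f : Z.V →ₗ[ℚ] M) (p : Z.V × V4 Z.V) :
    indLin f p = f p.1 + (g (.ra 0) • f p.2.1.1 + g (.ra 1) • f p.2.1.2 +
      g (.rb 0) • f p.2.2.1 + g (.rb 1) • f p.2.2.2) := rfl

include h0 in
theorem IsKHom.e0 {f : Z.V →ₗ[ℚ] M} (hf : IsKHom Z f) (z : Z.V) : g (.e 0) • f z = 0 := by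
  rw [← hf.he, h0]
  simp

theorem IsKHom.hex {f : Z.V →ₗ[ℚ] M} (hf : IsKHom Z f) (n : ℕ) (z : Z.V) :
    f (ex Z.e n z) = ex (fun j => g (.e j)) n • f z := by
  by_cases h : n < 6
  · simp [ex, h, hf.he]
  · simp [ex, h]

include h0 in
theorem indLin_gen {f : Z.V →ₗ[ℚ] M} (hf : IsKHom Z f) (x : Gen) (p : Z.V × V4 Z.V) :
    indLin f (indF Z x p) = g x • indLin f p := by
  obtain ⟨z, ⟨a0, a1⟩, b0, b1⟩ := p
  cases x with
  | e i =>
    by_cases hi : i = 0
    · subst hi
      simp [indLin_apply, indF, Fe, hf.he, hf.hex, smul_add, e_ra_smul, e_rb_smul, hf.e0 h0]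
    · simp [indLin_apply, indF, Fe, hf.he, hf.hex, smul_add, e_ra_smul, e_rb_smul, hi]
  | th r =>
    fin_cases r <;>
      simp [indLin_apply, indF, Fth, hf.hth, smul_add, smul_sub, smul_neg, th_ra_smul,
        th_rb_smul] <;> abel
  | d =>
    simp [indLin_apply, indF, Fd, hf.hth, hf.hd, smul_add, smul_sub, smul_neg, d_ra0_smul,
      d_ra1_smul, d_rb0_smul, d_rb1_smul]
    abel
  | ra v =>
    fin_cases v <;> simp [indLin_apply, indF, smul_add, RR_smul]
  | rb v =>
    fin_cases v <;> simp [indLin_apply, indF, smul_add, RR_smul]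

/-- The adjunction map. -/
noncomputable def indLift (f : Z.V →ₗ[ℚ] M) (hf : IsKHom Z f) : (Ind Z h0).V →ₗ[A] M :=
  homOfGen (indLin f ∘ₗ ofInd Z h0) (fun x p => by
    rw [Rep.gen_smul]; exact indLin_gen h0 hf x p)

theorem indLift_incl (f : Z.V →ₗ[ℚ] M) (hf : IsKHom Z f) (z : Z.V) :
    indLift h0 f hf (toInd Z h0 (z, 0)) = f z := by
  show indLin f (z, 0) = f z
  simp [indLin_apply]

theorem ind_ext (φ ψ : (Ind Z h0).V →ₗ[A] M)
    (h : ∀ z : Z.V, φ (toInd Z h0 (z, 0)) = ψ (toInd Z h0 (z, 0))) : φ = ψ := by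
  refine LinearMap.ext fun p => ?_
  obtain ⟨q, rfl⟩ : ∃ q, toInd Z h0 q = p := ⟨p, rfl⟩
  obtain ⟨z, ⟨a0, a1⟩, b0, b1⟩ := q
  have key : toInd Z h0 (z, ((a0, a1), (b0, b1))) = toInd Z h0 (z, 0) +
      g (.ra 0) • toInd Z h0 (a0, 0) + g (.ra 1) • toInd Z h0 (a1, 0) +
      g (.rb 0) • toInd Z h0 (b0, 0) + g (.rb 1) • toInd Z h0 (b1, 0) := by
    simp only [gen_toInd, ← map_add]
    congr 1
    simp [indF]
  simp only [key, map_add, map_smul, h]

end Adj

end Vale.Agent.P176
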