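import Vale.Agent.P176.Ext16
import Vale.Agent.P176.Ind

/-!
Chevalley–Eilenberg representations, cones, and maps out of them.
-/

set_option linter.unusedSectionVars false
set_option linter.unusedSimpArgs false
set_option linter.unusedTactic false
set_option linter.unreachableTactic false

namespace Vale.Agent.P176

/-- A rational representation of the Lie algebra of two by two matrices. -/
structure Gl where
  L : Type
  [ac : AddCommGroup L]
  [md : Module ℚ L]
  u : Fin 4 → Module.End ℚ L
  h01 : ∀ x, u 0 (u 1 x) = u 1 (u 0 x) + u 1 x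
  h02 : ∀ x, u 0 (u 2 x) = u 2 (u 0 x) - u 2 x
  h03 : ∀ x, u 0 (u 3 x) = u 3 (u 0 x)
  h12 : ∀ x, u 1 (u 2 x) = u 2 (u 1 x) + u 0 x - u 3 x
  h13 : ∀ x, u 1 (u 3 x) = u 3 (u 1 x) + u 1 x
  h23 : ∀ x, u 2 (u 3 x) = u 3 (u 2 x) - u 2 x

attribute [instance] Gl.ac Gl.md

theorem KRep.e0_th (M : KRep) (r : Fin 4) (x : M.V) : ex M.e 0 (M.th r x) = 0 := by
  conv_lhs => rw [← M.total x, map_sum, map_sum]
  refine Finset.sum_eq_zero fun i _ => ?_
  rw [M.e_ex i, M.th_ex, M.ex_orth, if_neg (by omega)]

theorem KRep.e0_d (M : KRep) (x : M.V) : ex M.e 0 (M.d x) = 0 := by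
  conv_lhs => rw [← M.total x, map_sum, map_sum]
  refine Finset.sum_eq_zero fun i _ => ?_
  rw [M.e_ex i, M.d_ex, M.ex_orth, if_neg (by omega)]

/-- The same representation with all arrows negated. -/
noncomputable abbrev KRep.ng (Z : KRep) : KRep where
  V := Z.V
  e := Z.e
  th r := -Z.th r
  d := -Z.d
  h :=
    { orth := Z.h.orth
      total := Z.h.total
      th_e := fun r i => by simp [Z.h.th_e r i]
      d_e := fun i => by simp [Z.h.d_e i]
      anti := fun r s => by simp [Z.h.anti r s]
      sq := fun r => by simp [Z.h.sq r]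
      dd := by simp [Z.h.dd]
      d_th := fun r => by fin_cases r <;> simp [Q, Z.h.d_th] <;> abel }

/-- Data commuting with a window representation. -/
structure Twist (Z : KRep) where
  u : Fin 4 → Module.End ℚ Z.V
  ue : ∀ r i x, u r (Z.e i x) = Z.e i (u r x)
  ut : ∀ r s x, u r (Z.th s x) = Z.th s (u r x)
  ud : ∀ r x, u r (Z.d x) = Z.d (u r x)
  h01 : ∀ x, u 0 (u 1 x) = u 1 (u 0 x) + u 1 x
  h02 : ∀ x, u 0 (u 2 x) = u 2 (u 0 x) - u 2 x
  h03 : ∀ x, u 0 (u 3 x) = u 3 (u 0 x)
  h12 : ∀ x, u 1 (u 2 x) = u 2 (u 1 x) + u 0 x - u 3 x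
  h13 : ∀ x, u 1 (u 3 x) = u 3 (u 1 x) + u 1 x
  h23 : ∀ x, u 2 (u 3 x) = u 3 (u 2 x) - u 2 x

/-- Twist of a window representation. -/
noncomputable def Twist.K {Z : KRep} (T : Twist Z) : KRep where
  V := Z.V
  e := Z.e
  th := Z.th
  d := Z.d + ∑ r, Z.th r ∘ₗ T.u r
  h :=
    { orth := Z.h.orth
      total := Z.h.total
      th_e := Z.h.th_e
      d_e := fun i => by
        refine LinearMap.ext fun x => ?_
        simp only [Module.End.mul_apply, LinearMap.add_apply, LinearMap.sum_apply,
          LinearMap.comp_apply, map_add, map_sum, Fin.sum_univ_four, T.ue]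
        rw [Z.e_ex i]
        simp [Z.th_ex, Z.d_ex]
      anti := Z.h.anti
      sq := Z.h.sq
      dd := by
        refine LinearMap.ext fun x => ?_
        simp [Module.End.mul_apply, Fin.sum_univ_four, map_add, map_sub, Z.d_th, Z.dd, Q, T.ut,
          T.ud, T.h01, T.h02, T.h03, T.h12, T.h13, T.h23, Z.sq, Z.anti _ 1 0, Z.anti _ 2 0,
          Z.anti _ 3 0, Z.anti _ 2 1, Z.anti _ 3 1, Z.anti _ 3 2]
        abel
      d_th := fun r => by
        refine LinearMap.ext fun x => ?_
        fin_cases r <;>
          simp [Module.End.mul_apply, Fin.sum_univ_four, map_add, map_sub, Z.d_th, Q, T.ut,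
            Z.sq, Z.anti _ 1 0, Z.anti _ 2 0, Z.anti _ 3 0, Z.anti _ 2 1, Z.anti _ 3 1,
            Z.anti _ 3 2] <;> abel }

/-- The twisting data of a Lie algebra representation. -/
noncomputable def ceTwist (G : Gl) (s : ℕ) (hs : s ≤ 1) : Twist (C0 G.L s hs) where
  u r := pw (G.u r)
  ue r i x := pw_mask (G.u r) s i x
  ut r t x := pw_actM (G.u r) (thM t) x
  ud r x := pw_actM (G.u r) dM x
  h01 x := funext fun j => by simpa [Pi.add_apply] using! G.h01 (x j)
  h02 x := funext fun j => by simpa [Pi.sub_apply] using! G.h02 (x j)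
  h03 x := funext fun j => by simpa using! G.h03 (x j)
  h12 x := funext fun j => by simpa [Pi.add_apply, Pi.sub_apply] using! G.h12 (x j)
  h13 x := funext fun j => by simpa [Pi.add_apply] using! G.h13 (x j)
  h23 x := funext fun j => by simpa [Pi.sub_apply] using! G.h23 (x j)

/-- The differential of the complex. -/
noncomputable def ceD (G : Gl) : Module.End ℚ (Fin 16 → G.L) :=
  d16 + ∑ r, th16 r ∘ₗ pw (G.u r)

/-- Chevalley–Eilenberg representation, shifted by `s`. -/
noncomputable abbrev CE (G : Gl) (s : ℕ) (hs : s ≤ 1) : KRep where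
  V := Fin 16 → G.L
  e i := mask s i
  th := th16
  d := ceD G
  h := (ceTwist G s hs).K.h

/-- The representation in degrees `0..4`. -/
noncomputable abbrev Z0 (G : Gl) : KRep := CE G 0 (Nat.zero_le 1)

/-- The representation in degrees `1..5`, negated. -/
noncomputable abbrev Z1 (G : Gl) : KRep := (CE G 1 le_rfl).ng

theorem mask_one_zero {L : Type} [AddCommGroup L] [Module ℚ L] :
    (mask 1 0 : Module.End ℚ (Fin 16 → L)) = 0 := by
  refine LinearMap.ext fun f => funext fun j => ?_
  simp [mask_apply]

theorem Z1_e0 (G : Gl) : (Z1 G).e 0 = 0 := mask_one_zero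

theorem CE_dd (G : Gl) (x : Fin 16 → G.L) : ceD G (ceD G x) = 0 := (Z0 G).dd x

theorem CE_d_th (G : Gl) (x : Fin 16 → G.L) (r : Fin 4) :
    ceD G (th16 r x) = Q th16 r x - th16 r (ceD G x) := (Z0 G).d_th x r

theorem ceD_pw {G H : Gl} (φ : G.L →ₗ[ℚ] H.L) (hφ : ∀ r x, φ (G.u r x) = H.u r (φ x))
    (f : Fin 16 → G.L) : pw φ (ceD G f) = ceD H (pw φ f) := by
  have h1 : ∀ r, pw φ (pw (G.u r) f) = pw (H.u r) (pw φ f) := fun r => funext fun j => hφ r (f j)
  simp [ceD, d16, th16, LinearMap.sum_apply, pw_actM, h1]

theorem par_th16 {L : Type} [AddCommGroup L] [Module ℚ L] (r : Fin 4) (f : Fin 16 → L) :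
    par (th16 r f) = -th16 r (par f) := by
  have h := congrArg (actHom (L := L)) (par_th r)
  rw [map_neg, map_mul, map_mul] at h
  exact LinearMap.congr_fun h f

/-- Basis vectors. -/
def one16 {L : Type} [AddCommGroup L] [Module ℚ L] : L →ₗ[ℚ] (Fin 16 → L) :=
  LinearMap.single ℚ (fun _ : Fin 16 => L) 0

theorem col_th {L : Type} [AddCommGroup L] [Module ℚ L] (r : Fin 4) (j : Fin 16) (l : L) :
    th16 r (Pi.single j l) = Pi.single (tgt r j) (sgn r j • l) := by
  funext i
  simp only [th16, actM_apply]
  rw [Finset.sum_eq_single j]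
  · by_cases h : i = tgt r j
    · subst h; simp [thM]
    · simp [thM, h]
  · intro b _ hb
    simp [Pi.single_eq_of_ne hb]
  · simp

theorem reach : ∀ j : Fin 16, (j == 0 || (List.finRange 4).any fun r =>
    (List.finRange 16).any fun j' =>
      decide (j' < j) && (tgt r j' == j) && (sgn r j' == 1 || sgn r j' == -1)) = true := by
  decide +kernel

theorem ext16_induction {L : Type} [AddCommGroup L] [Module ℚ L] (P : (Fin 16 → L) → Prop)
    (h0 : P 0) (hadd : ∀ f f', P f → P f' → P (f + f')) (hb : ∀ l, P (one16 l))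
    (hth : ∀ r f, P f → P (th16 r f)) : ∀ f, P f := by
  have hsingle : ∀ (n : ℕ) (j : Fin 16), (j : ℕ) = n → ∀ l, P (Pi.single j l) := by
    intro n
    induction n using Nat.strong_induction_on with
    | _ n ih =>
      intro j hj l
      have := reach j
      simp only [Bool.or_eq_true, beq_iff_eq, List.any_eq_true, Bool.and_eq_true,
        decide_eq_true_eq] at this
      rcases this with rfl | ⟨r, -, j', -, ⟨hlt, ht⟩, hs⟩
      · exact hb l
      · subst ht
        rcases hs with hs | hs
        · have := hth r _ (ih j' (by omega) j' rfl l)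
          rwa [col_th, hs, one_smul] at this
        · have := hth r _ (ih j' (by omega) j' rfl (-l))
          rwa [col_th, hs, neg_one_smul, neg_neg] at this
  intro f
  rw [← Finset.univ_sum_single f]
  exact Finset.sum_induction _ P hadd h0 fun j _ => hsingle _ j rfl _

section Word

variable (M : KRep)

/-- An operator or the identity. -/
def opIf (b : Bool) (T : Module.End ℚ M.V) : Module.End ℚ M.V := if b then T else 1

/-- The monomial operator of a subset. -/
def word (j : Fin 16) : Module.End ℚ M.V :=
  opIf M (bit 0 j) (M.th 0) * opIf M (bit 1 j) (M.th 1) * opIf M (bit 2 j) (M.th 2) *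
    opIf M (bit 3 j) (M.th 3)

theorem th_word (r : Fin 4) (j : Fin 16) (x : M.V) :
    M.th r (word M j x) = sgn r j • word M (tgt r j) x := by
  fin_cases r <;> fin_cases j <;>
    simp (config := { decide := true }) [word, opIf, bit, tgt, sgn, List.finRange_succ, M.sq,
      M.anti _ 1 0, M.anti _ 2 0, M.anti _ 3 0, M.anti _ 2 1, M.anti _ 3 1, M.anti _ 3 2]

variable {L : Type} [AddCommGroup L] [Module ℚ L]

/-- The map out of the exterior algebra determined by its value on generators. -/
noncomputable def fC (g : L →ₗ[ℚ] M.V) : (Fin 16 → L) →ₗ[ℚ] M.V :=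
  ∑ j, word M j ∘ₗ g ∘ₗ LinearMap.proj j

theorem fC_apply (g : L →ₗ[ℚ] M.V) (f : Fin 16 → L) : fC M g f = ∑ j, word M j (g (f j)) := by
  simp [fC, LinearMap.sum_apply]

theorem fC_one (g : L →ₗ[ℚ] M.V) (l : L) : fC M g (one16 l) = g l := by
  rw [fC_apply, Finset.sum_eq_single 0]
  · simp [one16, word, opIf, bit]
  · intro j _ hj
    simp [one16, Pi.single_eq_of_ne hj]
  · simp

theorem fC_th (g : L →ₗ[ℚ] M.V) (r : Fin 4) (f : Fin 16 → L) :
    fC M g (th16 r f) = M.th r (fC M g f) := by
  simp only [fC_apply, map_sum, th_word, th16, actM_apply, map_zsmul]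
  rw [Finset.sum_comm]
  refine Finset.sum_congr rfl fun j _ => ?_
  rw [Finset.sum_eq_single (tgt r j)]
  · simp [thM]
  · intro i _ hi
    simp [thM, hi]
  · simp

theorem fC_comp {L' : Type} [AddCommGroup L'] [Module ℚ L'] (g : L →ₗ[ℚ] M.V) (φ : L' →ₗ[ℚ] L)
    (f : Fin 16 → L') : fC M g (pw φ f) = fC M (g ∘ₗ φ) f := by
  simp [fC_apply]

theorem fC_e (g : L →ₗ[ℚ] M.V) (s : ℕ) (hg : ∀ n l, ex M.e n (g l) = if n = s then g l else 0)
    (f : Fin 16 → L) : ∀ n, fC M g (mask s n f) = ex M.e n (fC M g f) := by
  refine ext16_induction (fun f => ∀ n, fC M g (mask s n f) = ex M.e n (fC M g f))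
    (fun n => by simp) (fun a b ha hb n => by simp only [map_add, ha n, hb n]) (fun l n => ?_)
    (fun r a ha n => ?_) f
  · rw [fC_one, hg]
    have : mask s n (one16 l) = if n = s then one16 l else 0 := by
      funext j
      by_cases hj : j = 0
      · subst hj
        have : deg 0 = 0 := by decide
        simp only [mask_apply, this, zero_add]
        by_cases h : n = s <;> simp [h, Ne.symm, eq_comm]
      · by_cases h : n = s <;> simp [mask_apply, one16, Pi.single_eq_of_ne hj, h]
    rw [this]
    split
    · rw [fC_one]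
    · simp
  · cases n with
    | zero =>
      rw [fC_th, M.e0_th]
      have : mask s 0 (th16 r a) = 0 := by
        funext j
        simp only [mask_apply, Pi.zero_apply]
        split
        · rename_i h
          simp only [th16, actM_apply]
          refine Finset.sum_eq_zero fun k _ => ?_
          rcases thM_deg r j k with h' | h'
          · simp [h']
          · omega
        · rfl
      rw [this, map_zero]
    | succ n =>
      have : mask s (n + 1) (th16 r a) = th16 r (mask s n a) :=
        (raise_mask (thM r) (thM_deg r) s n a).symm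
      rw [this, fC_th, fC_th, ha, M.th_ex]

theorem Q_map {V W : Type} [AddCommGroup V] [Module ℚ V] [AddCommGroup W] [Module ℚ W]
    (φ : V →ₗ[ℚ] W) (a : Fin 4 → Module.End ℚ V) (b : Fin 4 → Module.End ℚ W)
    (h : ∀ r x, φ (a r x) = b r (φ x)) (r : Fin 4) (x : V) : φ (Q a r x) = Q b r (φ x) := by
  fin_cases r <;> simp [Q, h]

theorem fC_d (G : Gl) (g h : G.L →ₗ[ℚ] M.V)
    (hg : ∀ l, M.d (g l) = ∑ r, M.th r (g (G.u r l)) + h l) (f : Fin 16 → G.L) :
    M.d (fC M g f) = fC M g (ceD G f) + fC M h (par f) := by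
  refine ext16_induction
    (fun f => M.d (fC M g f) = fC M g (ceD G f) + fC M h (par f))
    (by simp) (fun a b ha hb => by simp only [map_add, ha, hb]; abel) (fun l => ?_)
    (fun r a ha => ?_) f
  · have hd : d16 (one16 l) = 0 := by
      funext i
      simp only [d16, actM_apply, Pi.zero_apply]
      refine Finset.sum_eq_zero fun j _ => ?_
      by_cases hj : j = 0
      · subst hj; simp [dM_col0]
      · simp [one16, Pi.single_eq_of_ne hj]
    have hp : par (one16 l) = one16 l := by
      funext i
      simp only [par, actM_apply, parM]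
      rw [Finset.sum_eq_single 0]
      · by_cases hi : i = 0
        · subst hi
          have : deg 0 = 0 := by decide
          simp [one16, this]
        · simp [one16, hi, Pi.single_eq_of_ne hi]
      · intro j _ hj; simp [one16, Pi.single_eq_of_ne hj]
      · simp
    have hu : ∀ r, pw (G.u r) (one16 l) = one16 (G.u r l) := by
      intro r
      funext j
      by_cases hj : j = 0
      · subst hj; simp [one16]
      · simp [one16, Pi.single_eq_of_ne hj]
    simp only [fC_one, hp, hg, ceD, LinearMap.add_apply, LinearMap.sum_apply,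
      LinearMap.comp_apply, hd, hu, map_add, map_zero, map_sum, fC_th, zero_add]
  · rw [fC_th, M.d_th, ha, CE_d_th, par_th16, map_sub, map_neg, fC_th, fC_th,
      Q_map (fC M g) th16 M.th (fC_th M g) r a, map_add]
    abel

attribute [irreducible] fC

end Word

section Cone

variable (G : Gl) (φ : G.L →ₗ[ℚ] G.L) (hφ : ∀ r x, φ (G.u r x) = G.u r (φ x))

/-- The cone of an intertwiner. -/
noncomputable abbrev Cn : KRep where
  V := (Fin 16 → G.L) × (Fin 16 → G.L)
  e i := (mask 1 i).prodMap (mask 0 i)
  th r := (-th16 r).prodMap (th16 r)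
  d := ((-ceD G) ∘ₗ LinearMap.fst ℚ _ _ + pw φ ∘ₗ LinearMap.snd ℚ _ _).prod
    (ceD G ∘ₗ LinearMap.snd ℚ _ _)
  h :=
    { orth := fun i j => by
        refine LinearMap.ext fun w => ?_
        have h1 : mask 1 i (mask 1 j w.1) = if i = j then mask 1 i w.1 else 0 :=
          (Z1 G).orth w.1 i j
        have h2 : mask 0 i (mask 0 j w.2) = if i = j then mask 0 i w.2 else 0 :=
          (Z0 G).orth w.2 i j
        split <;> simp_all [Prod.ext_iff]
      total := by
        refine LinearMap.ext fun w => ?_
        simp only [LinearMap.sum_apply, LinearMap.prodMap_apply, Module.End.one_apply]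
        refine Prod.ext ?_ ?_
        · simpa [Prod.fst_sum, KRep.ng, CE] using! (Z1 G).total w.1
        · simpa [Prod.snd_sum, CE] using! (Z0 G).total w.2
      th_e := fun r i => by
        refine LinearMap.ext fun w => ?_
        have h1 : (-th16 r) (ex (fun k : Fin 6 => mask 1 k) i w.1) =
            ex (fun k : Fin 6 => mask 1 k) (i + 1) ((-th16 r) w.1) := (Z1 G).th_ex w.1 r i
        have h2 : th16 r (ex (fun k : Fin 6 => mask 0 k) i w.2) =
            ex (fun k : Fin 6 => mask 0 k) (i + 1) (th16 r w.2) := (Z0 G).th_ex w.2 r i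
        rw [Module.End.mul_apply, Module.End.mul_apply, ex_prodMap]
        simp only [ex, Fin.is_lt, dite_true, Fin.eta] at h1 h2 ⊢
        exact Prod.ext h1 h2
      d_e := fun i => by
        refine LinearMap.ext fun w => ?_
        have h1 : (-ceD G) (ex (fun k : Fin 6 => mask 1 k) i w.1) =
            ex (fun k : Fin 6 => mask 1 k) (i + 1) ((-ceD G) w.1) := (Z1 G).d_ex w.1 i
        have h2 : ceD G (ex (fun k : Fin 6 => mask 0 k) i w.2) =
            ex (fun k : Fin 6 => mask 0 k) (i + 1) (ceD G w.2) := (Z0 G).d_ex w.2 i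
        rw [Module.End.mul_apply, Module.End.mul_apply, ex_prodMap]
        simp only [ex, Fin.is_lt, dite_true, Fin.eta] at h1 h2 ⊢
        refine Prod.ext ?_ h2
        simp only [LinearMap.prodMap_apply, LinearMap.prod_apply, LinearMap.add_apply,
          LinearMap.comp_apply, LinearMap.fst_apply, LinearMap.snd_apply, Function.prod_apply,
          map_add]
        by_cases h : (i : ℕ) + 1 < 6
        · rw [h1, dif_pos h]
          congr 1
          rw [pw_mask]
          funext k
          simp [mask_apply]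
        · rw [h1, dif_neg h]
          have : (mask 0 (i : ℕ) : Module.End ℚ (Fin 16 → G.L)) = 0 := by
            refine LinearMap.ext fun f => funext fun k => ?_
            have := deg_le k
            simp [mask_apply, show deg k ≠ (i : ℕ) by omega]
          simp [this]
      anti := fun r s => by
        refine LinearMap.ext fun w => ?_
        have h : th16 r (th16 s w.1) = -th16 s (th16 r w.1) := (Z0 G).anti w.1 r s
        have h' : th16 r (th16 s w.2) = -th16 s (th16 r w.2) := (Z0 G).anti w.2 r s
        simp [Module.End.mul_apply, h, h']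
      sq := fun r => by
        refine LinearMap.ext fun w => ?_
        have h : th16 r (th16 r w.1) = 0 := (Z0 G).sq w.1 r
        have h' : th16 r (th16 r w.2) = 0 := (Z0 G).sq w.2 r
        simp [Module.End.mul_apply, h, h']
      dd := by
        refine LinearMap.ext fun w => ?_
        simp [Module.End.mul_apply, CE_dd, ceD_pw φ hφ]
      d_th := fun r => by
        refine LinearMap.ext fun w => ?_
        have hp : ∀ r f, pw φ (th16 r f) = th16 r (pw φ f) := fun r f => pw_actM φ (thM r) f
        fin_cases r <;> simp [Module.End.mul_apply, CE_d_th, Q, hp] <;> abel }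

end Cone

end Vale.Agent.P176
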