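import Vale.Agent.P176.Ind

/-!
Homological tools in the category of modules.
-/

set_option linter.unusedSectionVars false
set_option linter.unusedSimpArgs false
set_option linter.unusedTactic false
set_option linter.unreachableTactic false

namespace Vale.Agent.P176

open CategoryTheory CategoryTheory.Abelian

universe u

/-- The module of a representation, as an object. -/
noncomputable abbrev Rep.mod (M : Rep) : ModuleCat.{0} A := ModuleCat.of A M.V

/-- The simple module at the first vertex, as window representation. -/
noncomputable def S0K : KRep where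
  V := ℚ
  e i := if i = 0 then 1 else 0
  th _ := 0
  d := 0
  h :=
    { orth := fun i j => by
        by_cases hi : i = 0 <;> by_cases hj : j = 0 <;> by_cases hij : i = j <;> simp_all
      total := by simp
      th_e := fun r i => by simp
      d_e := fun i => by simp
      anti := fun r s => by simp
      sq := fun r => by simp
      dd := by simp
      d_th := fun r => by fin_cases r <;> simp [Q] }

/-- The simple module at the first vertex. -/
noncomputable abbrev S0 : Rep := S0K.rep

section Ses

variable {X₁ X₂ X₃ : Type} [AddCommGroup X₁] [Module A X₁] [AddCommGroup X₂] [Module A X₂]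
  [AddCommGroup X₃] [Module A X₃] (a : X₁ →ₗ[A] X₂) (b : X₂ →ₗ[A] X₃)

/-- A short complex from two linear maps. -/
noncomputable def ses (h : b ∘ₗ a = 0) : ShortComplex (ModuleCat.{0} A) :=
  ShortComplex.mk (ModuleCat.ofHom a) (ModuleCat.ofHom b) (by
    ext x; exact LinearMap.congr_fun h x)

theorem ses_exact (hi : Function.Injective a) (hs : Function.Surjective b)
    (he : Function.Exact a b) : (ses a b he.linearMap_comp_eq_zero).ShortExact :=
  ModuleCat.shortComplex_shortExact _ he hi hs

end Ses

/-- All extension groups against the simple module at the first vertex vanish in degree `q`. -/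
def ExtZero (X : ModuleCat.{0} A) (q : ℕ) : Prop := ∀ e : Ext.{0} X S0.mod q, e = 0

theorem extZero_of_isZero {X : ModuleCat.{0} A} (h : Limits.IsZero X) (q : ℕ) : ExtZero X q := by
  intro e
  have := h.hasProjectiveDimensionLT_zero
  exact e.eq_zero_of_hasProjectiveDimensionLT 0 (Nat.zero_le q)

theorem extZero_zero_of_hom {X : ModuleCat.{0} A} (h : ∀ f : X ⟶ S0.mod, f = 0) : ExtZero X 0 := by
  intro e
  obtain ⟨f, rfl⟩ := Ext.homEquiv₀.symm.surjective e
  simp [h f]

theorem extZero_of_retract {X Y : ModuleCat.{0} A} (r : Retract X Y) {q : ℕ}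
    (h : ExtZero Y q) : ExtZero X q := by
  intro x
  rw [← x.mk₀_id_comp, ← r.retract, ← Ext.mk₀_comp_mk₀,
    Ext.comp_assoc_of_second_deg_zero, h ((Ext.mk₀ r.r).comp x (zero_add q)), Ext.comp_zero]

theorem extZero_projective {X : ModuleCat.{0} A} [Projective X] (q : ℕ) : ExtZero X (q + 1) :=
  fun e => e.eq_zero_of_projective

section Shift

variable {S : ShortComplex (ModuleCat.{0} A)} (hS : S.ShortExact)
include hS

theorem extZero_X₃ {q : ℕ} (h₁ : ExtZero S.X₁ q) (h₂ : ExtZero S.X₂ (q + 1)) :
    ExtZero S.X₃ (q + 1) := by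
  intro x
  obtain ⟨y, rfl⟩ := Ext.contravariant_sequence_exact₃ hS _ x (h₂ _) (add_comm 1 q)
  rw [h₁ y, Ext.comp_zero]

theorem extZero_X₁ {q : ℕ} (h₂ : ExtZero S.X₂ q) (h₃ : ExtZero S.X₃ (q + 1)) :
    ExtZero S.X₁ q := by
  intro x
  obtain ⟨y, rfl⟩ := Ext.contravariant_sequence_exact₁ hS _ x (add_comm 1 q) (h₃ _)
  rw [h₂ y, Ext.comp_zero]

end Shift

end Vale.Agent.P176
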