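import Vale.Agent.P176.Cat

/-!
Every induced module has bounded projective dimension and no extensions to the first simple.
-/

set_option linter.unusedSectionVars false
set_option linter.unusedSimpArgs false
set_option linter.unusedTactic false
set_option linter.unreachableTactic false

namespace Vale.Agent.P176

open CategoryTheory TensorProduct

section Tri

/-- The subalgebra generated by idempotents and forward arrows. -/
noncomputable def Kimg : Subalgebra ℚ A :=
  Algebra.adjoin ℚ (Set.range (fun i => g (.e i)) ∪ Set.range (fun r => g (.th r)) ∪ {g .d})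

theorem e_mem_Kimg (i : Fin 6) : g (.e i) ∈ Kimg :=
  Algebra.subset_adjoin (Or.inl (Or.inl ⟨i, rfl⟩))

theorem th_mem_Kimg (r : Fin 4) : g (.th r) ∈ Kimg :=
  Algebra.subset_adjoin (Or.inl (Or.inr ⟨r, rfl⟩))

theorem d_mem_Kimg : g .d ∈ Kimg := Algebra.subset_adjoin (Or.inr rfl)

theorem raise_tri {a : A} (ha : ∀ i : Fin 6, a * g (.e i) = ex (fun j => g (.e j)) (i + 1) * a)
    {j i : Fin 6} (h : j ≤ i) : g (.e j) * a * g (.e i) = 0 := by
  rw [mul_assoc, ha, ← mul_assoc]
  unfold ex
  split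
  · rw [g_isA.isK.orth, if_neg, zero_mul]
    intro hh
    have h1 := congrArg Fin.val hh
    have h2 : (j : ℕ) ≤ i := h
    simp at h1
    omega
  · simp

theorem Kimg_tri {k : A} (hk : k ∈ Kimg) :
    (∀ j i : Fin 6, j < i → g (.e j) * k * g (.e i) = 0) ∧
      ∀ j : Fin 6, ∃ c : ℚ, g (.e j) * k * g (.e j) = c • g (.e j) := by
  induction hk using Algebra.adjoin_induction with
  | mem x hx =>
    rcases hx with (⟨l, rfl⟩ | ⟨r, rfl⟩) | rfl
    · refine ⟨fun j i h => ?_, fun j => ⟨if j = l then 1 else 0, ?_⟩⟩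
      · rw [g_isA.isK.orth]
        split
        · rw [g_isA.isK.orth, if_neg (ne_of_lt h)]
        · simp
      · rw [g_isA.isK.orth]
        split <;> simp [g_isA.isK.orth]
    · exact ⟨fun j i h => raise_tri (g_isA.isK.th_e r) h.le,
        fun j => ⟨0, by rw [raise_tri (g_isA.isK.th_e r) le_rfl, zero_smul]⟩⟩
    · exact ⟨fun j i h => raise_tri g_isA.isK.d_e h.le,
        fun j => ⟨0, by rw [raise_tri g_isA.isK.d_e le_rfl, zero_smul]⟩⟩
  | algebraMap c =>
    refine ⟨fun j i h => ?_, fun j => ⟨c, ?_⟩⟩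
    · rw [← Algebra.commutes, mul_assoc, g_isA.isK.orth, if_neg (ne_of_lt h), mul_zero]
    · rw [← Algebra.commutes, mul_assoc, g_isA.isK.orth, if_pos rfl, Algebra.smul_def]
  | add x y _ _ hx hy =>
    refine ⟨fun j i h => ?_, fun j => ?_⟩
    · rw [mul_add, add_mul, hx.1 j i h, hy.1 j i h, add_zero]
    · obtain ⟨a, ha⟩ := hx.2 j
      obtain ⟨b, hb⟩ := hy.2 j
      exact ⟨a + b, by rw [mul_add, add_mul, ha, hb, add_smul]⟩
  | mul x y _ _ hx hy =>
    have split1 : ∀ j i : Fin 6, g (.e j) * (x * y) * g (.e i) =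
        ∑ l, (g (.e j) * x * g (.e l)) * (g (.e l) * y * g (.e i)) := by
      intro j i
      calc g (.e j) * (x * y) * g (.e i)
          = g (.e j) * x * (∑ l, g (.e l)) * (y * g (.e i)) := by
            rw [g_isA.isK.total]; noncomm_ring
        _ = _ := by
            rw [Finset.mul_sum, Finset.sum_mul]
            refine Finset.sum_congr rfl fun l _ => ?_
            have := g_isA.isK.orth l l
            rw [if_pos rfl] at this
            conv_lhs => rw [← this]
            noncomm_ring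
    refine ⟨fun j i h => ?_, fun j => ?_⟩
    · rw [split1]
      refine Finset.sum_eq_zero fun l _ => ?_
      rcases lt_or_ge j l with h' | h'
      · rw [hx.1 j l h', zero_mul]
      · rw [hy.1 l i (lt_of_le_of_lt h' h), mul_zero]
    · obtain ⟨a, ha⟩ := hx.2 j
      obtain ⟨b, hb⟩ := hy.2 j
      refine ⟨a * b, ?_⟩
      rw [split1, Finset.sum_eq_single j]
      · rw [ha, hb, smul_mul_smul_comm, g_isA.isK.orth, if_pos rfl]
      · intro l _ hl
        rcases lt_or_ge j l with h' | h'
        · rw [hx.1 j l h', zero_mul]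
        · rw [hy.1 l j (lt_of_le_of_ne h' hl), mul_zero]
      · simp

end Tri

variable (Z : KRep)

/-- The cover inside the free module on the underlying space. -/
noncomputable def cover : Submodule ℚ (A ⊗[ℚ] Z.V) :=
  Submodule.span ℚ {t | ∃ k ∈ Kimg, ∃ i z, t = (k * g (.e i)) ⊗ₜ Z.e i z}

theorem cover_smul {a : A} (ha : a ∈ Kimg) {t : A ⊗[ℚ] Z.V} (ht : t ∈ cover Z) :
    a • t ∈ cover Z := by
  induction ht using Submodule.span_induction with
  | mem t ht =>
    obtain ⟨k, hk, i, z, rfl⟩ := ht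
    exact Submodule.subset_span
      ⟨a * k, mul_mem ha hk, i, z, by rw [smul_tmul', smul_eq_mul, mul_assoc]⟩
  | zero => simp
  | add x y _ _ hx hy => rw [smul_add]; exact add_mem hx hy
  | smul c x _ hx => rw [smul_comm]; exact Submodule.smul_mem _ c hx

/-- Action on the free module by an element of the subalgebra, restricted to the cover. -/
noncomputable def coverAct (a : A) (ha : a ∈ Kimg) : Module.End ℚ (cover Z) :=
  (act (M := A ⊗[ℚ] Z.V) a).restrict (p := cover Z) (q := cover Z) fun _ ht => cover_smul Z ha ht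

theorem coverAct_coe (a : A) (ha : a ∈ Kimg) (p : cover Z) :
    (coverAct Z a ha p : A ⊗[ℚ] Z.V) = a • (p : A ⊗[ℚ] Z.V) := rfl

/-- The cover as window representation. -/
noncomputable abbrev P : KRep where
  V := cover Z
  e i := coverAct Z _ (e_mem_Kimg i)
  th r := coverAct Z _ (th_mem_Kimg r)
  d := coverAct Z _ d_mem_Kimg
  h :=
    { orth := fun i j => by
        refine LinearMap.ext fun p => Subtype.ext ?_
        simp only [Module.End.mul_apply, coverAct_coe, ← mul_smul, g_isA.isK.orth]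
        split <;> simp [coverAct_coe]
      total := by
        refine LinearMap.ext fun p => Subtype.ext ?_
        simp [LinearMap.sum_apply, coverAct_coe, ← Finset.sum_smul, g_isA.isK.total]
      th_e := fun r i => by
        refine LinearMap.ext fun p => Subtype.ext ?_
        simp only [Module.End.mul_apply, coverAct_coe, ← mul_smul, g_isA.isK.th_e]
        unfold ex
        split <;> simp [coverAct_coe, mul_smul]
      d_e := fun i => by
        refine LinearMap.ext fun p => Subtype.ext ?_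
        simp only [Module.End.mul_apply, coverAct_coe, ← mul_smul, g_isA.isK.d_e]
        unfold ex
        split <;> simp [coverAct_coe, mul_smul]
      anti := fun r s => by
        refine LinearMap.ext fun p => Subtype.ext ?_
        simp only [Module.End.mul_apply, LinearMap.neg_apply, Submodule.coe_neg, coverAct_coe,
          ← mul_smul]
        rw [g_isA.isK.anti r s, neg_smul, mul_smul]
        rfl
      sq := fun r => by
        refine LinearMap.ext fun p => Subtype.ext ?_
        simp [coverAct_coe, ← mul_smul, g_isA.isK.sq]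
      dd := by
        refine LinearMap.ext fun p => Subtype.ext ?_
        simp [coverAct_coe, ← mul_smul, g_isA.isK.dd]
      d_th := fun r => by
        refine LinearMap.ext fun p => Subtype.ext ?_
        simp only [Module.End.mul_apply, coverAct_coe, ← mul_smul, g_isA.isK.d_th, sub_smul]
        rw [mul_smul]
        fin_cases r <;> simp [Q, sub_smul, add_smul, mul_smul] <;> rfl }

variable (h0 : Z.e 0 = 0)

include h0 in
theorem P_e0 : (P Z).e 0 = 0 := by
  refine LinearMap.ext fun p => Subtype.ext ?_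
  obtain ⟨t, ht⟩ := p
  show g (.e 0) • t = 0
  induction ht using Submodule.span_induction with
  | mem t ht =>
    obtain ⟨k, hk, i, z, rfl⟩ := ht
    by_cases hi : i = 0
    · subst hi; simp [h0]
    · rw [smul_tmul', smul_eq_mul, ← mul_assoc,
        (Kimg_tri hk).1 0 i (Fin.pos_iff_ne_zero.2 hi), zero_tmul]
  | zero => simp
  | add x y _ _ hx hy => simp [smul_add, hx, hy]
  | smul c x _ hx => rw [smul_comm, hx, smul_zero]

/-- The canonical element of the cover. -/
noncomputable def p0 : Z.V →ₗ[ℚ] (P Z).V :=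
  LinearMap.codRestrict (cover Z) (∑ i, (TensorProduct.mk ℚ A Z.V (g (.e i))) ∘ₗ Z.e i)
    fun z => by
      rw [LinearMap.sum_apply]
      exact sum_mem fun i _ => Submodule.subset_span ⟨1, one_mem _, i, z, by simp⟩

theorem p0_coe (z : Z.V) :
    ((p0 Z z : cover Z) : A ⊗[ℚ] Z.V) = ∑ i, g (.e i) ⊗ₜ[ℚ] Z.e i z := by
  show (∑ i, (TensorProduct.mk ℚ A Z.V (g (.e i))) ∘ₗ Z.e i) z = _
  simp [LinearMap.sum_apply]

theorem e_smul_p0 (i : Fin 6) (z : Z.V) :
    g (.e i) • ((p0 Z (Z.e i z) : cover Z) : A ⊗[ℚ] Z.V) = g (.e i) ⊗ₜ Z.e i z := by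
  rw [p0_coe, Finset.smul_sum, Finset.sum_eq_single i]
  · rw [smul_tmul', smul_eq_mul, g_isA.isK.orth, if_pos rfl, Z.orth, if_pos rfl]
  · intro j _ hj
    simp [Z.orth, hj]
  · simp

theorem incl_isKHom : IsKHom (P Z) (cover Z).subtype where
  he _ _ := rfl
  hth _ _ := rfl
  hd _ := rfl

/-- Into the free module. -/
noncomputable def toFree : (Ind (P Z) (P_e0 Z h0)).V →ₗ[A] A ⊗[ℚ] Z.V :=
  indLift (P_e0 Z h0) (cover Z).subtype (incl_isKHom Z)

/-- Back from the free module. -/
noncomputable def ofFree : A ⊗[ℚ] Z.V →ₗ[A] (Ind (P Z) (P_e0 Z h0)).V :=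
  TensorProduct.AlgebraTensorModule.lift
    (LinearMap.toSpanSingleton A (Z.V →ₗ[ℚ] (Ind (P Z) (P_e0 Z h0)).V)
      (toInd (P Z) (P_e0 Z h0) ∘ₗ LinearMap.inl ℚ _ _ ∘ₗ p0 Z))

theorem ofFree_tmul (a : A) (z : Z.V) :
    ofFree Z h0 (a ⊗ₜ z) = a • toInd (P Z) (P_e0 Z h0) (p0 Z z, 0) := rfl

theorem Kimg_toInd {k : A} (hk : k ∈ Kimg) (hP : (P Z).e 0 = 0) (p : cover Z) :
    k • toInd (P Z) hP (p, 0) = toInd (P Z) hP (coverAct Z k hk p, 0) := by
  induction hk using Algebra.adjoin_induction generalizing p with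
  | mem x hx =>
    rcases hx with (⟨i, rfl⟩ | ⟨r, rfl⟩) | rfl <;> rw [gen_toInd] <;> congr 1 <;>
      simp [indF] <;> rfl
  | algebraMap c =>
    rw [algebraMap_smul, ← map_smul]
    congr 1
  | add x y hx hy ihx ihy =>
    rw [add_smul, ihx, ihy, ← map_add]
    congr 1
    refine Prod.ext (Subtype.ext ?_) (by simp)
    exact (add_smul x y _).symm
  | mul x y hx hy ihx ihy =>
    rw [mul_smul, ihy, ihx]
    congr 1
    refine Prod.ext (Subtype.ext ?_) rfl
    exact (mul_smul x y _).symm

theorem ofFree_toFree : (ofFree Z h0) ∘ₗ (toFree Z h0) = LinearMap.id := by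
  refine ind_ext (P_e0 Z h0) _ _ fun p => ?_
  rw [LinearMap.comp_apply, toFree, indLift_incl, LinearMap.id_apply]
  obtain ⟨t, ht⟩ := p
  show ofFree Z h0 t = toInd (P Z) (P_e0 Z h0) ((⟨t, ht⟩ : cover Z), 0)
  induction ht using Submodule.span_induction with
  | mem t ht =>
    obtain ⟨k, hk, i, z, rfl⟩ := ht
    rw [ofFree_tmul, mul_smul, Kimg_toInd Z (e_mem_Kimg i), Kimg_toInd Z hk]
    congr 1
    refine Prod.ext (Subtype.ext ?_) rfl
    show k • g (.e i) • ((p0 Z (Z.e i z) : cover Z) : A ⊗[ℚ] Z.V) = _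
    rw [e_smul_p0, smul_tmul', smul_eq_mul]
  | zero =>
    rw [map_zero]
    exact (map_zero (toInd (P Z) (P_e0 Z h0))).symm
  | add x y hx hy ihx ihy =>
    rw [map_add, ihx, ihy, ← map_add]
    congr 1
  | smul c x hx ih =>
    rw [LinearMap.map_smul_of_tower, ih, ← map_smul]
    congr 1

instance P_projective : Projective (Ind (P Z) (P_e0 Z h0)).mod := by
  have : Module.Projective A (Ind (P Z) (P_e0 Z h0)).V :=
    Module.Projective.of_split (toFree Z h0) (ofFree Z h0) (ofFree_toFree Z h0)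
  infer_instance

/-- Evaluation of the free module. -/
noncomputable def ev : A ⊗[ℚ] Z.V →ₗ[A] Z.rep.V :=
  TensorProduct.AlgebraTensorModule.lift
    (LinearMap.toSpanSingleton A (Z.V →ₗ[ℚ] Z.rep.V) Z.up)

theorem ev_tmul (a : A) (z : Z.V) : ev Z (a ⊗ₜ z) = a • Z.up z := rfl

/-- Evaluation, in plain coordinates. -/
noncomputable def evL : A ⊗[ℚ] Z.V →ₗ[ℚ] Z.V := Z.down ∘ₗ (ev Z).restrictScalars ℚ

theorem evL_tmul (a : A) (z : Z.V) : evL Z (a ⊗ₜ z) = Z.down (a • Z.up z) := rfl

theorem evL_gen (x : Gen) (t : A ⊗[ℚ] Z.V) : evL Z (g x • t) = inflF Z x (evL Z t) := by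
  show Z.down (ev Z (g x • t)) = _
  rw [map_smul, Rep.gen_smul]
  rfl

/-- The covering map. -/
noncomputable def pi : (P Z).V →ₗ[ℚ] Z.V := evL Z ∘ₗ (cover Z).subtype

theorem pi_gen (x : Gen) (k : A) (hk : k ∈ Kimg) (hx : g x = k) (p : cover Z) :
    pi Z (coverAct Z k hk p) = inflF Z x (pi Z p) := by
  subst hx
  exact evL_gen Z x _

theorem pi_p0 (z : Z.V) : pi Z (p0 Z z) = z := by
  show evL Z ((p0 Z z : cover Z) : A ⊗[ℚ] Z.V) = z
  rw [p0_coe, map_sum]
  refine (Finset.sum_congr rfl fun i _ => ?_).trans (Z.total z)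
  rw [evL_tmul, KRep.gen_up, KRep.down_up]
  exact (Z.orth z i i).trans (if_pos rfl)

/-- Window homomorphism. -/
structure IsMap (Z W : KRep) (φ : Z.V →ₗ[ℚ] W.V) : Prop where
  he : ∀ i z, φ (Z.e i z) = W.e i (φ z)
  hth : ∀ r z, φ (Z.th r z) = W.th r (φ z)
  hd : ∀ z, φ (Z.d z) = W.d (φ z)

theorem pi_isMap : IsMap (P Z) Z (pi Z) where
  he i p := pi_gen Z (.e i) _ (e_mem_Kimg i) rfl p
  hth r p := pi_gen Z (.th r) _ (th_mem_Kimg r) rfl p
  hd p := pi_gen Z .d _ d_mem_Kimg rfl p

/-- Kernel of a window homomorphism. -/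
noncomputable def kerK {Z W : KRep} (φ : Z.V →ₗ[ℚ] W.V) (hφ : IsMap Z W φ) : KRep where
  V := LinearMap.ker φ
  e i := (Z.e i).restrict fun z hz => by simp_all [hφ.he]
  th r := (Z.th r).restrict fun z hz => by simp_all [hφ.hth]
  d := Z.d.restrict fun z hz => by simp_all [hφ.hd]
  h :=
    { orth := fun i j => by
        refine LinearMap.ext fun p => Subtype.ext ?_
        have := Z.orth p.1 i j
        split <;> simp_all
      total := by
        refine LinearMap.ext fun p => Subtype.ext ?_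
        simp [LinearMap.sum_apply, Z.total]
      th_e := fun r i => by
        refine LinearMap.ext fun p => Subtype.ext ?_
        have := LinearMap.congr_fun (Z.h.th_e r i) p.1
        unfold ex at this ⊢
        split <;> simp_all
      d_e := fun i => by
        refine LinearMap.ext fun p => Subtype.ext ?_
        have := LinearMap.congr_fun (Z.h.d_e i) p.1
        unfold ex at this ⊢
        split <;> simp_all
      anti := fun r s => by
        refine LinearMap.ext fun p => Subtype.ext ?_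
        simp [Z.anti p.1 r s]
      sq := fun r => by
        refine LinearMap.ext fun p => Subtype.ext ?_
        simp [Z.sq]
      dd := by
        refine LinearMap.ext fun p => Subtype.ext ?_
        simp [Z.dd]
      d_th := fun r => by
        refine LinearMap.ext fun p => Subtype.ext ?_
        fin_cases r <;> simp [Q, Z.d_th] }

section IndMap

variable {Z} {W : KRep} (φ : Z.V →ₗ[ℚ] W.V) (hφ : IsMap Z W φ) (hW : W.e 0 = 0)

/-- Lift into an induced module. -/
noncomputable def indMapLin : Z.V →ₗ[ℚ] (Ind W hW).V :=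
  toInd W hW ∘ₗ LinearMap.inl ℚ _ _ ∘ₗ φ

include hφ in
theorem indMapLin_isKHom : IsKHom Z (indMapLin φ hW) where
  he i z := by
    show toInd W hW (φ (Z.e i z), 0) = g (.e i) • toInd W hW (φ z, 0)
    rw [gen_toInd, hφ.he]
    congr 1
    simp [indF]
  hth r z := by
    show toInd W hW (φ (Z.th r z), 0) = g (.th r) • toInd W hW (φ z, 0)
    rw [gen_toInd, hφ.hth]
    congr 1
    simp [indF]
  hd z := by
    show toInd W hW (φ (Z.d z), 0) = g .d • toInd W hW (φ z, 0)
    rw [gen_toInd, hφ.hd]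
    congr 1
    simp [indF]

/-- Functoriality of induction. -/
noncomputable def indMap : (Ind Z h0).V →ₗ[A] (Ind W hW).V :=
  indLift h0 (indMapLin φ hW) (indMapLin_isKHom φ hφ hW)

theorem indMap_apply (q : Z.V × V4 Z.V) :
    indMap h0 φ hφ hW (toInd Z h0 q) =
      toInd W hW (φ q.1, ((φ q.2.1.1, φ q.2.1.2), (φ q.2.2.1, φ q.2.2.2))) := by
  show indLin (indMapLin φ hW) q = _
  rw [indLin_apply]
  simp only [indMapLin, LinearMap.comp_apply, LinearMap.inl_apply, gen_toInd, ← map_add]
  congr 1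
  simp [indF]

end IndMap

theorem hom_ind_S0 (f : (Ind Z h0).V →ₗ[A] S0.V) : f = 0 := by
  refine ind_ext h0 _ _ fun z => ?_
  have h : (z, (0 : V4 Z.V)) = ∑ i, indF Z (.e i) (z, 0) := by
    refine Prod.ext ?_ ?_
    · simp [Prod.fst_sum, indF, Z.total]
    · simp [Prod.snd_sum, indF]
  rw [h, map_sum, map_sum, LinearMap.zero_apply]
  refine Finset.sum_eq_zero fun i _ => ?_
  by_cases hi : i = 0
  · subst hi
    have : indF Z (.e 0) (z, 0) = 0 := by simp [indF, h0]
    rw [this, map_zero, map_zero]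
  · rw [← gen_toInd, map_smul, Rep.gen_smul]
    show S0K.e i _ = 0
    rw [show S0K.e i = 0 from if_neg hi]
    rfl

include h0 in
theorem ker_pi_vanish (m : ℕ) (hm : ∀ i : Fin 6, (i : ℕ) < m → Z.e i = 0) (j : Fin 6)
    (hj : (j : ℕ) < m + 1) : (kerK (pi Z) (pi_isMap Z)).e j = 0 := by
  refine LinearMap.ext fun p => Subtype.ext (Subtype.ext ?_)
  show g (.e j) • ((p.1 : cover Z) : A ⊗[ℚ] Z.V) = 0
  have key : ∀ t ∈ cover Z, g (.e j) • t = g (.e j) ⊗ₜ Z.e j (evL Z t) := by
    intro t ht
    induction ht using Submodule.span_induction with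
    | mem t ht =>
      obtain ⟨k, hk, i, z, rfl⟩ := ht
      have hev : ∀ a : A, Z.e j (evL Z (a ⊗ₜ Z.e i z)) =
          Z.down ((g (.e j) * a) • Z.up (Z.e i z)) := by
        intro a
        rw [evL_tmul, mul_smul, Rep.gen_smul]
        rfl
      rw [hev, smul_tmul', smul_eq_mul, ← mul_assoc]
      by_cases hi : (i : ℕ) < m
      · have hzero : Z.e i z = 0 := by simp [hm i hi]
        simp [hzero]
      · rcases lt_or_ge j i with hlt | hge
        · rw [(Kimg_tri hk).1 j i hlt, zero_tmul, zero_smul, map_zero, tmul_zero]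
        · have hji : i = j := Fin.ext (by
            have : (i : ℕ) ≤ j := hge
            omega)
          subst hji
          obtain ⟨c, hc⟩ := (Kimg_tri hk).2 i
          rw [hc, ← smul_tmul', smul_assoc, map_smul, KRep.gen_up, KRep.down_up, tmul_smul]
          congr 2
          exact ((Z.orth z i i).trans (if_pos rfl)).symm
    | zero => simp
    | add x y _ _ hx hy => simp only [smul_add, hx, hy, tmul_add, map_add]
    | smul c x _ hx => rw [smul_comm, hx, map_smul, map_smul, tmul_smul]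
  rw [key _ (p.1 : cover Z).2]
  have : pi Z p.1 = 0 := p.2
  show g (.e j) ⊗ₜ Z.e j (pi Z p.1) = _
  rw [this, map_zero, tmul_zero]

/-- The main statement on induced modules. -/
theorem ind_good : ∀ (k : ℕ) (Z : KRep) (h0 : Z.e 0 = 0),
    (∀ i : Fin 6, (i : ℕ) + k < 6 → Z.e i = 0) →
      HasProjectiveDimensionLT (Ind Z h0).mod (k + 1) ∧
        ∀ q, ExtZero (Ind Z h0).mod q := by
  intro k
  induction k with
  | zero =>
    intro Z h0 hk
    have hz : ∀ z : Z.V, z = 0 := fun z => by
      rw [← Z.total z]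
      exact Finset.sum_eq_zero fun i _ => by rw [hk i (by omega)]; rfl
    have : Subsingleton (Z.V × V4 Z.V) := by
      have : Subsingleton Z.V := ⟨fun a b => (hz a).trans (hz b).symm⟩
      infer_instance
    have : Subsingleton (Ind Z h0).V := this
    have hzero : Limits.IsZero (Ind Z h0).mod := ModuleCat.isZero_of_subsingleton _
    have := hzero.hasProjectiveDimensionLT_zero
    exact ⟨hasProjectiveDimensionLT_of_ge _ 0 _ (by omega), extZero_of_isZero hzero⟩
  | succ k ih =>
    intro Z h0 hk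
    have hK0 : (kerK (pi Z) (pi_isMap Z)).e 0 = 0 := by
      refine LinearMap.ext fun p => Subtype.ext ?_
      exact LinearMap.congr_fun (P_e0 Z h0) p.1
    obtain ⟨h1, h1'⟩ := ih (kerK (pi Z) (pi_isMap Z)) hK0 fun i hi =>
      ker_pi_vanish Z h0 (5 - k) (fun l hl => hk l (by omega)) i (by omega)
    let a := indMap (h0 := hK0) (LinearMap.ker (pi Z)).subtype
      ⟨fun _ _ => rfl, fun _ _ => rfl, fun _ => rfl⟩ (P_e0 Z h0)
    let b := indMap (h0 := P_e0 Z h0) (pi Z) (pi_isMap Z) h0
    have ha : ∀ q, a (toInd _ hK0 q) = toInd _ (P_e0 Z h0)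
        (q.1.1, ((q.2.1.1.1, q.2.1.2.1), (q.2.2.1.1, q.2.2.2.1))) := fun q =>
      indMap_apply hK0 _ _ _ q
    have hb : ∀ q, b (toInd _ (P_e0 Z h0) q) = toInd Z h0
        (pi Z q.1, ((pi Z q.2.1.1, pi Z q.2.1.2), (pi Z q.2.2.1, pi Z q.2.2.2))) := fun q =>
      indMap_apply (P_e0 Z h0) _ _ _ q
    have hinj : Function.Injective a := by
      intro x y hxy
      obtain ⟨x', rfl⟩ : ∃ q, toInd _ hK0 q = x := ⟨x, rfl⟩
      obtain ⟨y', rfl⟩ : ∃ q, toInd _ hK0 q = y := ⟨y, rfl⟩
      rw [ha, ha] at hxy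
      simp only [toInd, LinearMap.id_apply] at hxy
      obtain ⟨x1, ⟨x2, x3⟩, x4, x5⟩ := x'
      obtain ⟨y1, ⟨y2, y3⟩, y4, y5⟩ := y'
      injection hxy with e1 e'
      injection e' with ea eb
      injection ea with e2 e3
      injection eb with e4 e5
      obtain rfl : x1 = y1 := Subtype.ext e1
      obtain rfl : x2 = y2 := Subtype.ext e2
      obtain rfl : x3 = y3 := Subtype.ext e3
      obtain rfl : x4 = y4 := Subtype.ext e4
      obtain rfl : x5 = y5 := Subtype.ext e5
      rfl
    have hsurj : Function.Surjective b := by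
      intro y
      obtain ⟨⟨z, ⟨a0, a1⟩, b0, b1⟩, rfl⟩ : ∃ q, toInd Z h0 q = y := ⟨y, rfl⟩
      refine ⟨toInd _ (P_e0 Z h0) (p0 Z z, ((p0 Z a0, p0 Z a1), (p0 Z b0, p0 Z b1))), ?_⟩
      rw [hb]
      simp only
      rw [pi_p0 Z z, pi_p0 Z a0, pi_p0 Z a1, pi_p0 Z b0, pi_p0 Z b1]
    have hex : Function.Exact a b := by
      intro y
      obtain ⟨⟨z, ⟨a0, a1⟩, b0, b1⟩, rfl⟩ : ∃ q, toInd _ (P_e0 Z h0) q = y := ⟨y, rfl⟩
      rw [hb]
      constructor
      · intro h
        simp only [toInd, LinearMap.id_apply] at h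
        injection h with e1 e'
        injection e' with ea eb
        injection ea with e2 e3
        injection eb with e4 e5
        exact ⟨toInd _ hK0 (⟨z, e1⟩, ((⟨a0, e2⟩, ⟨a1, e3⟩), (⟨b0, e4⟩, ⟨b1, e5⟩))), ha _⟩
      · rintro ⟨x, hx⟩
        obtain ⟨x', rfl⟩ : ∃ q, toInd _ hK0 q = x := ⟨x, rfl⟩
        rw [ha] at hx
        simp only [toInd, LinearMap.id_apply] at hx
        injection hx with e1 e'
        injection e' with ea eb
        injection ea with e2 e3
        injection eb with e4 e5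
        obtain ⟨⟨x1, h1⟩, ⟨⟨x2, h2⟩, ⟨x3, h3⟩⟩, ⟨x4, h4⟩, ⟨x5, h5⟩⟩ := x'
        simp only at e1 e2 e3 e4 e5
        subst e1 e2 e3 e4 e5
        rw [LinearMap.mem_ker] at h1 h2 h3 h4 h5
        simp [h1, h2, h3, h4, h5]
        rfl
    have hS := ses_exact a b hinj hsurj hex
    haveI hP : Projective (ses a b hex.linearMap_comp_eq_zero).X₂ := P_projective Z h0
    refine ⟨hS.hasProjectiveDimensionLT_X₃ (k + 1) h1 ?_, fun q => ?_⟩
    · exact hasProjectiveDimensionLT_of_ge _ 1 _ (by omega)
    · cases q with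
      | zero =>
        exact extZero_zero_of_hom fun f => ModuleCat.hom_ext (hom_ind_S0 Z h0 f.hom)
      | succ q => exact extZero_X₃ hS (h1' q) (extZero_projective q)

theorem ind_pd : HasProjectiveDimensionLT (Ind Z h0).mod 6 :=
  (ind_good 5 Z h0 fun i hi => by
    have : i = 0 := Fin.ext (by simp; omega)
    subst this; exact h0).1

theorem ind_extZero (q : ℕ) : ExtZero (Ind Z h0).mod q :=
  (ind_good 5 Z h0 fun i hi => by
    have : i = 0 := Fin.ext (by simp; omega)
    subst this; exact h0).2 q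

end Vale.Agent.P176
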