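import Vale.Agent.P176.CE
import Vale.Agent.P176.Resolve

/-!
Cones: exact sequences, projectivity, and the translation of a complex as a cone.
-/

set_option linter.unusedSectionVars false
set_option linter.unusedSimpArgs false
set_option linter.unusedTactic false
set_option linter.unreachableTactic false

namespace Vale.Agent.P176

open CategoryTheory CategoryTheory.Abelian TensorProduct

theorem IsMap.hex {Z W : KRep} {φ : Z.V →ₗ[ℚ] W.V} (h : IsMap Z W φ) (n : ℕ) (z : Z.V) :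
    φ (ex Z.e n z) = ex W.e n (φ z) := by
  by_cases hn : n < 6
  · simp [ex, hn, h.he]
  · simp [ex, hn]

/-- Window homomorphisms inflate. -/
noncomputable def repMap {Z W : KRep} (φ : Z.V →ₗ[ℚ] W.V) (h : IsMap Z W φ) :
    Z.rep.V →ₗ[A] W.rep.V :=
  homOfGen (W.up ∘ₗ φ ∘ₗ Z.down) fun x m => by
    obtain ⟨z, rfl⟩ : ∃ z, Z.up z = m := ⟨m, rfl⟩
    rw [KRep.gen_up, LinearMap.comp_apply, LinearMap.comp_apply, LinearMap.comp_apply,
      LinearMap.comp_apply, KRep.down_up, KRep.down_up, KRep.gen_up]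
    cases x <;> simp [inflF, h.he, h.hth, h.hd]

theorem repMap_up {Z W : KRep} (φ : Z.V →ₗ[ℚ] W.V) (h : IsMap Z W φ) (z : Z.V) :
    repMap φ h (Z.up z) = W.up (φ z) := rfl

theorem Cn_ext {G : Gl} {φ : G.L →ₗ[ℚ] G.L} (hφ : ∀ r x, φ (G.u r x) = G.u r (φ x))
    (w : (Fin 16 → G.L) × (Fin 16 → G.L)) :
    (Cn G φ hφ).up w = (Cn G φ hφ).up (w.1, 0) + (Cn G φ hφ).up (0, w.2) :=
  (congrArg (Cn G φ hφ).up (Prod.ext (add_zero w.1).symm (zero_add w.2).symm :
    w = ((w.1, 0) : (Fin 16 → G.L) × (Fin 16 → G.L)) + (0, w.2))).trans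
      (map_add (Cn G φ hφ).up _ _)

section Basic

variable (G : Gl) (φ : G.L →ₗ[ℚ] G.L) (hφ : ∀ r x, φ (G.u r x) = G.u r (φ x))

/-- Shifted complex into the cone. -/
noncomputable def inclMap : (Z1 G).V →ₗ[ℚ] (Cn G φ hφ).V :=
  LinearMap.inl ℚ (Fin 16 → G.L) (Fin 16 → G.L)

/-- Cone onto the complex. -/
noncomputable def projMap : (Cn G φ hφ).V →ₗ[ℚ] (Z0 G).V :=
  LinearMap.snd ℚ (Fin 16 → G.L) (Fin 16 → G.L)

theorem inclMap_isMap : IsMap (Z1 G) (Cn G φ hφ) (inclMap G φ hφ) where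
  he i z := Prod.ext rfl (map_zero (mask (L := G.L) 0 (i : ℕ))).symm
  hth r z := Prod.ext rfl (map_zero (th16 (L := G.L) r)).symm
  hd z := by
    refine Prod.ext ?_ (map_zero (ceD G)).symm
    show (-ceD G) z = (-ceD G) z + pw φ 0
    rw [map_zero, add_zero]

theorem projMap_isMap : IsMap (Cn G φ hφ) (Z0 G) (projMap G φ hφ) where
  he _ _ := rfl
  hth _ _ := rfl
  hd _ := rfl

theorem cone_exact : Function.Exact (repMap _ (inclMap_isMap G φ hφ))
    (repMap _ (projMap_isMap G φ hφ)) := by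
  intro y
  obtain ⟨w, rfl⟩ : ∃ w, (Cn G φ hφ).up w = y := ⟨y, rfl⟩
  constructor
  · intro h
    have h' : w.2 = 0 := h
    exact ⟨(Z1 G).up w.1, congrArg (Cn G φ hφ).up (Prod.ext rfl h'.symm)⟩
  · rintro ⟨x, hx⟩
    have h' : (0 : Fin 16 → G.L) = w.2 := congrArg Prod.snd hx
    exact h'.symm

theorem cone_inj : Function.Injective (repMap _ (inclMap_isMap G φ hφ)) :=
  fun _ _ h => congrArg Prod.fst h

theorem cone_surj : Function.Surjective (repMap _ (projMap_isMap G φ hφ)) :=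
  fun y => ⟨(Cn G φ hφ).up (0, (Z0 G).down y), rfl⟩

/-- The short exact sequence of a cone. -/
noncomputable def coneSes : ShortComplex (ModuleCat.{0} A) :=
  ses (repMap _ (inclMap_isMap G φ hφ)) (repMap _ (projMap_isMap G φ hφ))
    (cone_exact G φ hφ).linearMap_comp_eq_zero

theorem coneSes_exact : (coneSes G φ hφ).ShortExact :=
  ses_exact _ _ (cone_inj G φ hφ) (cone_surj G φ hφ) (cone_exact G φ hφ)

/-- Bottom-degree functional. -/
noncomputable def bottom (ψ : G.L →ₗ[ℚ] ℚ) : (Cn G φ hφ).V →ₗ[ℚ] S0K.V :=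
  ψ ∘ₗ LinearMap.proj 0 ∘ₗ LinearMap.snd ℚ (Fin 16 → G.L) (Fin 16 → G.L)

theorem bottom_isMap (ψ : G.L →ₗ[ℚ] ℚ) : IsMap (Cn G φ hφ) S0K (bottom G φ hφ ψ) where
  he i w := by
    show ψ (mask 0 (i : ℕ) w.2 0) = (if i = 0 then (1 : Module.End ℚ ℚ) else 0) (ψ (w.2 0))
    have : deg 0 = 0 := by decide
    rw [mask_apply, this]
    by_cases hi : i = 0
    · subst hi; simp
    · have : (i : ℕ) ≠ 0 := fun h => hi (Fin.ext h)
      simp [hi, Ne.symm this]
  hth r w := by
    show ψ (th16 r w.2 0) = (0 : Module.End ℚ ℚ) (ψ (w.2 0))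
    have h0 : deg 0 = 0 := by decide
    have : th16 r w.2 0 = 0 := by
      simp only [th16, actM_apply]
      refine Finset.sum_eq_zero fun j _ => ?_
      rcases thM_deg r 0 j with h | h
      · simp [h]
      · omega
    simp [this]
  hd w := by
    show ψ (ceD G w.2 0) = (0 : Module.End ℚ ℚ) (ψ (w.2 0))
    have h := (Z0 G).e0_d w.2
    have hh := congrFun h 0
    have h0 : deg 0 = 0 := by decide
    have : ceD G w.2 0 = 0 := by
      have e : mask 0 0 (ceD G w.2) 0 = 0 := hh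
      rwa [mask_apply, h0, if_pos rfl] at e
    simp [this]

theorem cone_hom_ne (ψ : G.L →ₗ[ℚ] ℚ) (p : G.L) (hp : ψ p ≠ 0) :
    ¬ ExtZero (Cn G φ hφ).rep.mod 0 := by
  intro h
  let f : (Cn G φ hφ).rep.mod ⟶ S0.mod :=
    ModuleCat.ofHom (repMap _ (bottom_isMap G φ hφ ψ))
  have hf : f = 0 := by
    refine (Ext.homEquiv₀ (X := (Cn G φ hφ).rep.mod) (Y := S0.mod)).symm.injective ?_
    rw [Ext.homEquiv₀_symm_apply, Ext.homEquiv₀_symm_apply, Ext.mk₀_zero]
    exact h _
  have h2 : repMap _ (bottom_isMap G φ hφ ψ) ((Cn G φ hφ).up (0, one16 p)) = 0 :=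
    LinearMap.congr_fun (congrArg ModuleCat.Hom.hom hf) _
  have h3 : ψ (one16 p (0 : Fin 16)) = 0 := h2
  simp [one16, hp] at h3

end Basic

section Maps

variable {G H : Gl} {φ : G.L →ₗ[ℚ] G.L} {hφ : ∀ r x, φ (G.u r x) = G.u r (φ x)}
  {ψ : H.L →ₗ[ℚ] H.L} {hψ : ∀ r x, ψ (H.u r x) = H.u r (ψ x)}

/-- Map of cones. -/
noncomputable def cnMap (fa fb : G.L →ₗ[ℚ] H.L) : (Cn G φ hφ).V →ₗ[ℚ] (Cn H ψ hψ).V :=
  (pw fa).prodMap (pw fb)

theorem cnMap_isMap {fa fb : G.L →ₗ[ℚ] H.L} (ha : ∀ r x, fa (G.u r x) = H.u r (fa x))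
    (hb : ∀ r x, fb (G.u r x) = H.u r (fb x)) (hc : ∀ x, fa (φ x) = ψ (fb x)) :
    IsMap (Cn G φ hφ) (Cn H ψ hψ) (cnMap fa fb) where
  he i w := Prod.ext (pw_mask fa 1 i w.1) (pw_mask fb 0 i w.2)
  hth r w := by
    refine Prod.ext ?_ (pw_actM fb (thM r) w.2)
    show pw fa (-th16 r w.1) = -th16 r (pw fa w.1)
    rw [map_neg]
    exact congrArg Neg.neg (pw_actM fa (thM r) w.1)
  hd w := by
    refine Prod.ext ?_ (ceD_pw fb hb w.2)
    show pw fa (-ceD G w.1 + pw φ w.2) = -ceD H (pw fa w.1) + pw ψ (pw fb w.2)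
    rw [map_add, map_neg, ceD_pw fa ha]
    congr 1
    funext j
    exact hc (w.2 j)

end Maps

section Proj

variable (M : Type) [AddCommGroup M] [Module ℚ M] [Module A M] [IsScalarTower ℚ A M]

/-- An algebra module as a window representation. -/
noncomputable def toK : KRep where
  V := M
  e i := act (g (.e i))
  th r := act (g (.th r))
  d := act (g .d)
  h :=
    { orth := fun i j => by
        refine LinearMap.ext fun m => ?_
        simp only [Module.End.mul_apply, act_apply, ← mul_smul, g_isA.isK.orth]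
        split <;> simp
      total := by
        refine LinearMap.ext fun m => ?_
        simp [LinearMap.sum_apply, ← Finset.sum_smul, g_isA.isK.total]
      th_e := fun r i => by
        refine LinearMap.ext fun m => ?_
        simp only [Module.End.mul_apply, act_apply, ← mul_smul, g_isA.isK.th_e]
        unfold ex
        split <;> simp [mul_smul]
      d_e := fun i => by
        refine LinearMap.ext fun m => ?_
        simp only [Module.End.mul_apply, act_apply, ← mul_smul, g_isA.isK.d_e]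
        unfold ex
        split <;> simp [mul_smul]
      anti := fun r s => by
        refine LinearMap.ext fun m => ?_
        simp only [Module.End.mul_apply, LinearMap.neg_apply, act_apply, ← mul_smul]
        rw [g_isA.isK.anti r s, neg_smul]
      sq := fun r => by
        refine LinearMap.ext fun m => ?_
        simp [← mul_smul, g_isA.isK.sq]
      dd := by
        refine LinearMap.ext fun m => ?_
        simp [← mul_smul, g_isA.isK.dd]
      d_th := fun r => by
        refine LinearMap.ext fun m => ?_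
        simp only [Module.End.mul_apply, act_apply, LinearMap.sub_apply, ← mul_smul,
          g_isA.isK.d_th, sub_smul]
        fin_cases r <;> simp [Q, mul_smul, sub_smul, add_smul] }

/-- Elements of the window representation in the module. -/
noncomputable def dnK : (toK M).V →ₗ[ℚ] M := LinearMap.id

theorem dnK_th (r : Fin 4) (x : (toK M).V) : dnK M ((toK M).th r x) = g (.th r) • dnK M x := rfl

theorem dnK_d (x : (toK M).V) : dnK M ((toK M).d x) = g .d • dnK M x := rfl

theorem dnK_e (i : Fin 6) (x : (toK M).V) : dnK M ((toK M).e i x) = g (.e i) • dnK M x := rfl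

end Proj

theorem fC_par (M : KRep) {L : Type} [AddCommGroup L] [Module ℚ L] (y : L →ₗ[ℚ] M.V)
    (f : Fin 16 → L) : fC M.ng y f = fC M y (par f) := by
  refine ext16_induction (fun f => fC M.ng y f = fC M y (par f)) (by rw [map_zero, map_zero, map_zero])
    (fun a b ha hb => ?_) (fun l => ?_) (fun r a ha => ?_) f
  · rw [map_add, map_add, map_add]
    exact congr (congrArg _ ha) hb
  · have hp : par (one16 l) = one16 l := by
      funext i
      simp only [par, actM_apply, parM]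
      rw [Finset.sum_eq_single 0]
      · by_cases hi : i = 0
        · subst hi
          have : deg 0 = 0 := by decide
          simp [one16, this]
        · simp [one16, hi, Pi.single_eq_of_ne hi]
      · intro j _ hj; simp [one16, Pi.single_eq_of_ne hj]
      · simp
    rw [hp]
    exact (fC_one M.ng y l).trans (fC_one M y l).symm
  · refine (fC_th M.ng y r a).trans ?_
    rw [par_th16, map_neg, fC_th]
    show -(M.th r (fC M.ng y a)) = _
    exact congrArg (fun t => -(M.th r t)) ha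

section FreeCone

variable (G : Gl)

/-- The generator map into a free module. -/
noncomputable def g0 : G.L →ₗ[ℚ] (toK (A ⊗[ℚ] G.L)).V := TensorProduct.mk ℚ A G.L (g (.e 0))

/-- The second generator map. -/
noncomputable def y0 : G.L →ₗ[ℚ] (toK (A ⊗[ℚ] G.L)).V :=
  (toK (A ⊗[ℚ] G.L)).d ∘ₗ g0 G - ∑ r, (toK (A ⊗[ℚ] G.L)).th r ∘ₗ g0 G ∘ₗ G.u r

theorem g0_ex (n : ℕ) (l : G.L) :
    ex (toK (A ⊗[ℚ] G.L)).e n (g0 G l) = if n = 0 then g0 G l else 0 := by
  by_cases h : n < 6
  · simp only [ex, dif_pos h]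
    show g (.e ⟨n, h⟩) • (g (.e 0) ⊗ₜ[ℚ] l) = _
    rw [smul_tmul', smul_eq_mul, g_isA.isK.orth]
    by_cases h' : n = 0
    · subst h'; simp [g0]; rfl
    · rw [if_neg (fun hh => h' (congrArg Fin.val hh)), if_neg h', zero_tmul]
      rfl
  · have : n ≠ 0 := by omega
    simp [ex, h, this]

theorem y0_apply (l : G.L) : y0 G l = (toK (A ⊗[ℚ] G.L)).d (g0 G l) -
    ∑ r, (toK (A ⊗[ℚ] G.L)).th r (g0 G (G.u r l)) := by
  simp [y0, LinearMap.sum_apply]

theorem y0_ex (n : ℕ) (l : G.L) :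
    ex (toK (A ⊗[ℚ] G.L)).e n (y0 G l) = if n = 1 then y0 G l else 0 := by
  rw [y0_apply]
  cases n with
  | zero => simp [map_sub, map_sum, KRep.e0_th, KRep.e0_d]
  | succ n =>
    simp only [map_sub, map_sum, ← KRep.th_ex, ← KRep.d_ex, g0_ex]
    by_cases h : n = 0
    · subst h; simp
    · simp [h]

theorem y0_d (l : G.L) :
    (toK (A ⊗[ℚ] G.L)).d (y0 G l) =
      ∑ r, (toK (A ⊗[ℚ] G.L)).th r (y0 G (G.u r l)) := by
  simp only [y0_apply, Fin.sum_univ_four]
  simp [map_sub, map_add, KRep.dd, KRep.d_th, Q, G.h01, G.h02, G.h03, G.h12, G.h13, G.h23,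
    KRep.sq, KRep.anti _ _ 1 0, KRep.anti _ _ 2 0, KRep.anti _ _ 3 0, KRep.anti _ _ 2 1,
    KRep.anti _ _ 3 1, KRep.anti _ _ 3 2]
  abel

theorem idComm (r : Fin 4) (x : G.L) :
    (LinearMap.id : G.L →ₗ[ℚ] G.L) (G.u r x) = G.u r ((LinearMap.id : G.L →ₗ[ℚ] G.L) x) := rfl

/-- The cone of the identity. -/
noncomputable abbrev Disk : KRep := Cn G LinearMap.id (idComm G)

/-- Into the free module, linear part. -/
noncomputable def sFun : (Disk G).V →ₗ[ℚ] (toK (A ⊗[ℚ] G.L)).V :=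
  LinearMap.coprod (fC (toK (A ⊗[ℚ] G.L)).ng (y0 G)) (fC (toK (A ⊗[ℚ] G.L)) (g0 G))

theorem sFun_isMap : IsMap (Disk G) (toK (A ⊗[ℚ] G.L)) (sFun G) where
  he i w := by
    show fC (toK (A ⊗[ℚ] G.L)).ng (y0 G) (mask 1 (i : ℕ) w.1) +
      fC (toK (A ⊗[ℚ] G.L)) (g0 G) (mask 0 (i : ℕ) w.2) = _
    rw [KRep.e_ex _ i, fC_e (toK (A ⊗[ℚ] G.L)).ng (y0 G) 1 (y0_ex G),
      fC_e (toK (A ⊗[ℚ] G.L)) (g0 G) 0 (g0_ex G)]
    exact (map_add _ _ _).symm
  hth r w := by
    show fC (toK (A ⊗[ℚ] G.L)).ng (y0 G) (-th16 r w.1) +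
      fC (toK (A ⊗[ℚ] G.L)) (g0 G) (th16 r w.2) = _
    rw [map_neg, fC_th, fC_th]
    show -(-((toK (A ⊗[ℚ] G.L)).th r _)) + _ = _
    rw [neg_neg]
    exact (map_add _ _ _).symm
  hd w := by
    have h2 := fC_d (toK (A ⊗[ℚ] G.L)) G (g0 G) (y0 G) (fun l => by
      rw [y0_apply]; abel) w.2
    have h1 := fC_d (toK (A ⊗[ℚ] G.L)).ng G (y0 G) 0 (fun l => by
      show -((toK (A ⊗[ℚ] G.L)).d (y0 G l)) =
        ∑ r, -((toK (A ⊗[ℚ] G.L)).th r (y0 G (G.u r l))) + 0
      rw [y0_d, Finset.sum_neg_distrib, add_zero]) w.1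
    show fC (toK (A ⊗[ℚ] G.L)).ng (y0 G) (-ceD G w.1 + pw LinearMap.id w.2) +
      fC (toK (A ⊗[ℚ] G.L)) (g0 G) (ceD G w.2) =
      (toK (A ⊗[ℚ] G.L)).d (fC (toK (A ⊗[ℚ] G.L)).ng (y0 G) w.1 +
        fC (toK (A ⊗[ℚ] G.L)) (g0 G) w.2)
    rw [map_add, map_neg, fC_comp, LinearMap.comp_id, fC_par _ _ w.2, map_add, h2]
    have h1' : (toK (A ⊗[ℚ] G.L)).d (fC (toK (A ⊗[ℚ] G.L)).ng (y0 G) w.1) =
        -fC (toK (A ⊗[ℚ] G.L)).ng (y0 G) (ceD G w.1) := by
      have h3 : fC (toK (A ⊗[ℚ] G.L)).ng (0 : G.L →ₗ[ℚ] _) (par w.1) = 0 := by simp [fC_apply]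
      rw [h3, add_zero] at h1
      rw [← h1]
      exact (neg_neg _).symm
    rw [h1']
    abel

theorem sFun_R (w : (Disk G).V) : ∀ v : Fin 2,
    g (.ra v) • dnK _ (sFun G w) = 0 ∧ g (.rb v) • dnK _ (sFun G w) = 0 := by
  let P : A ⊗[ℚ] G.L → Prop := fun t =>
    ∀ v : Fin 2, g (.ra v) • t = 0 ∧ g (.rb v) • t = 0
  have hadd : ∀ a b, P a → P b → P (a + b) := fun a b ha hb v =>
    ⟨by rw [smul_add, (ha v).1, (hb v).1, add_zero], by rw [smul_add, (ha v).2, (hb v).2, add_zero]⟩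
  have hzero : P 0 := fun v => ⟨smul_zero _, smul_zero _⟩
  have hneg : ∀ a, P a → P (-a) := fun a ha v =>
    ⟨by rw [smul_neg, (ha v).1, neg_zero], by rw [smul_neg, (ha v).2, neg_zero]⟩
  have hth : ∀ r t, P t → P (g (.th r) • t) := by
    intro r t ht v
    have h1 := th_ra_smul r v t
    have h2 := th_rb_smul r v t
    rw [(ht v).1, smul_zero] at h1
    have e1 : g (.ra v) • g (.th r) • t = 0 := neg_eq_zero.1 h1.symm
    refine ⟨e1, ?_⟩
    rw [(ht v).2, smul_zero] at h2
    have hE : (![![0, -(g (.ra 1) • t)], ![0, g (.ra 0) • t], ![g (.ra 1) • t, 0],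
        ![-(g (.ra 0) • t), 0]] : Fin 4 → Fin 2 → A ⊗[ℚ] G.L) r v = 0 := by
      rw [(ht 0).1, (ht 1).1, neg_zero]
      fin_cases r <;> fin_cases v <;> rfl
    rw [hE, add_zero] at h2
    exact h2.symm
  have hd : ∀ t, P t → P (g .d • t) := by
    intro t ht
    have hh : ∀ r, P (g (.th r) • t) := fun r => hth r t ht
    have a0 := d_ra0_smul t
    have a1 := d_ra1_smul t
    have b0 := d_rb0_smul t
    have b1 := d_rb1_smul t
    rw [(ht 0).1, smul_zero, (hh 0 0).1, (hh 1 1).1, add_zero, add_zero] at a0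
    rw [(ht 1).1, smul_zero, (hh 3 1).1, (hh 2 0).1, add_zero, add_zero] at a1
    rw [(ht 0).2, smul_zero, (hh 0 0).2, (hh 1 1).2, sub_zero, sub_zero] at b0
    rw [(ht 1).2, smul_zero, (hh 3 1).2, (hh 2 0).2, sub_zero, sub_zero] at b1
    intro v
    fin_cases v
    · exact ⟨neg_eq_zero.1 a0.symm, b0.symm⟩
    · exact ⟨neg_eq_zero.1 a1.symm, b1.symm⟩
  have hg : ∀ l, P (dnK _ (g0 G l)) := by
    intro l v
    constructor
    · show g (.ra v) • (g (.e 0) ⊗ₜ[ℚ] l) = 0
      rw [smul_tmul', smul_eq_mul, g_isA.ra_e, if_pos rfl, zero_tmul]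
    · show g (.rb v) • (g (.e 0) ⊗ₜ[ℚ] l) = 0
      rw [smul_tmul', smul_eq_mul, g_isA.rb_e, if_pos rfl, zero_tmul]
  have hy : ∀ l, P (dnK _ (y0 G l)) := by
    intro l
    rw [y0_apply, map_sub, map_sum, dnK_d, sub_eq_add_neg]
    refine hadd _ _ (hd _ (hg l)) (hneg _ ?_)
    refine Finset.sum_induction _ P hadd hzero fun r _ => ?_
    rw [dnK_th]
    exact hth r _ (hg _)
  have hb : ∀ f, P (dnK _ (fC (toK (A ⊗[ℚ] G.L)) (g0 G) f)) :=
    ext16_induction _ (by rw [map_zero, map_zero]; exact hzero)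
      (fun a b ha hb => by rw [map_add, map_add]; exact hadd _ _ ha hb)
      (fun l => by rw [fC_one]; exact hg l)
      (fun r f hf => by rw [fC_th, dnK_th]; exact hth r _ hf)
  have ha : ∀ f, P (dnK _ (fC (toK (A ⊗[ℚ] G.L)).ng (y0 G) f)) :=
    ext16_induction _ (by rw [map_zero, map_zero]; exact hzero)
      (fun a b ha hb => by rw [map_add, map_add]; exact hadd _ _ ha hb)
      (fun l => by rw [fC_one]; exact hy l)
      (fun r f hf => by
        rw [fC_th]
        show P (dnK _ (-((toK (A ⊗[ℚ] G.L)).th r _)))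
        rw [map_neg, dnK_th]
        exact hneg _ (hth r _ hf))
  have := hadd _ _ (ha w.1) (hb w.2)
  rw [← map_add] at this
  exact this

/-- Into the free module. -/
noncomputable def toFreeD : (Disk G).rep.V →ₗ[A] A ⊗[ℚ] G.L :=
  homOfGen (dnK _ ∘ₗ sFun G ∘ₗ (Disk G).down) fun x m => by
    obtain ⟨w, rfl⟩ : ∃ w, (Disk G).up w = m := ⟨m, rfl⟩
    rw [KRep.gen_up]
    show dnK _ (sFun G (inflF (Disk G) x w)) = g x • dnK _ (sFun G w)
    cases x with
    | e i => exact congrArg (dnK _) ((sFun_isMap G).he i w)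
    | th r => exact congrArg (dnK _) ((sFun_isMap G).hth r w)
    | d => exact congrArg (dnK _) ((sFun_isMap G).hd w)
    | ra v =>
      show dnK _ (sFun G 0) = _
      rw [map_zero, map_zero]; exact ((sFun_R G w) v).1.symm
    | rb v =>
      show dnK _ (sFun G 0) = _
      rw [map_zero, map_zero]; exact ((sFun_R G w) v).2.symm

/-- Back from the free module. -/
noncomputable def ofFreeD : A ⊗[ℚ] G.L →ₗ[A] (Disk G).rep.V :=
  TensorProduct.AlgebraTensorModule.lift
    (LinearMap.toSpanSingleton A (G.L →ₗ[ℚ] (Disk G).rep.V)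
      ((Disk G).up ∘ₗ LinearMap.inr ℚ (Fin 16 → G.L) (Fin 16 → G.L) ∘ₗ one16))

theorem mask_one16 {L : Type} [AddCommGroup L] [Module ℚ L] (l : L) :
    mask 0 0 (one16 l) = one16 l := by
  funext j
  by_cases hj : j = 0
  · subst hj
    have : deg 0 = 0 := by decide
    simp [mask_apply, this]
  · simp [mask_apply, one16, Pi.single_eq_of_ne hj]

theorem d16_one16 {L : Type} [AddCommGroup L] [Module ℚ L] (l : L) : d16 (one16 l) = 0 := by
  funext i
  simp only [d16, actM_apply, Pi.zero_apply]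
  refine Finset.sum_eq_zero fun j _ => ?_
  by_cases hj : j = 0
  · subst hj; simp [dM_col0]
  · simp [one16, Pi.single_eq_of_ne hj]

theorem pw_one16 {L P : Type} [AddCommGroup L] [Module ℚ L] [AddCommGroup P] [Module ℚ P]
    (u : L →ₗ[ℚ] P) (l : L) : pw u (one16 l) = one16 (u l) := by
  funext j
  by_cases hj : j = 0
  · subst hj; simp [one16]
  · simp [one16, Pi.single_eq_of_ne hj]

theorem ceD_one16 (l : G.L) : ceD G (one16 l) = ∑ r, th16 r (one16 (G.u r l)) := by
  simp [ceD, LinearMap.sum_apply, d16_one16, pw_one16]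

theorem ofFreeD_toFreeD : ofFreeD G ∘ₗ toFreeD G = LinearMap.id := by
  refine LinearMap.ext fun m => ?_
  obtain ⟨w, rfl⟩ : ∃ w, (Disk G).up w = m := ⟨m, rfl⟩
  rw [LinearMap.comp_apply, LinearMap.id_apply]
  let P : (Disk G).rep.V → Prop := fun m => ofFreeD G (toFreeD G m) = m
  have hadd : ∀ a b, P a → P b → P (a + b) := fun a b ha hb => by
    show ofFreeD G (toFreeD G (a + b)) = a + b
    rw [map_add, map_add, ha, hb]
  have hsm : ∀ (a : A) m, P m → P (a • m) := fun a m hm => by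
    show ofFreeD G (toFreeD G (a • m)) = a • m
    rw [map_smul, map_smul, hm]
  have hneg : ∀ a, P a → P (-a) := fun a ha => by
    show ofFreeD G (toFreeD G (-a)) = -a
    rw [map_neg, map_neg, ha]
  have h0 : P 0 := by
    show ofFreeD G (toFreeD G 0) = 0
    rw [map_zero, map_zero]
  have hb1 : ∀ l, P ((Disk G).up (0, one16 l)) := by
    intro l
    show ofFreeD G (dnK _ (sFun G (0, one16 l))) = _
    have : dnK _ (sFun G (0, one16 l)) = g (.e 0) ⊗ₜ[ℚ] l := by
      show dnK (A ⊗[ℚ] G.L) ((fC (toK (A ⊗[ℚ] G.L)).ng (y0 G) (0 : Fin 16 → G.L) : (toK (A ⊗[ℚ] G.L)).V) + fC (toK (A ⊗[ℚ] G.L)) (g0 G) (one16 l)) = _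
      rw [map_zero, zero_add, fC_one]
      rfl
    rw [this]
    show g (.e 0) • (Disk G).up (0, one16 l) = _
    rw [KRep.gen_up]
    exact congrArg _ (Prod.ext (map_zero (mask 1 0)) (mask_one16 l))
  have hb : ∀ f, P ((Disk G).up (0, f)) := by
    refine ext16_induction _ (by rw [Prod.mk_zero_zero, map_zero]; exact h0) (fun a b ha hb => ?_)
      hb1 (fun r f hf => ?_)
    · have := hadd _ _ ha hb
      rw [← map_add, Prod.mk_add_mk, add_zero] at this
      exact this
    · have := hsm (g (.th r)) _ hf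
      rw [KRep.gen_up] at this
      have e : inflF (Disk G) (.th r) (0, f) = (0, th16 r f) := Prod.ext (map_zero (-th16 (L := G.L) r)) rfl
      rwa [e] at this
  have ha : ∀ f, P ((Disk G).up (f, 0)) := by
    refine ext16_induction _ (by rw [Prod.mk_zero_zero, map_zero]; exact h0) (fun a b ha hb => ?_)
      (fun l => ?_) (fun r f hf => ?_)
    · have := hadd _ _ ha hb
      rw [← map_add, Prod.mk_add_mk, add_zero] at this
      exact this
    · have h1 := hsm (g .d) _ (hb1 l)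
      rw [KRep.gen_up] at h1
      have h2 := hneg _ (hb (ceD G (one16 l)))
      have h3 := hadd _ _ h1 h2
      rw [← map_neg, ← map_add] at h3
      have e : inflF (Disk G) .d (0, one16 l) + -((0, ceD G (one16 l)) : (Disk G).V) =
          (one16 l, 0) := by
        refine Prod.ext ?_ ?_
        · show (-ceD G) 0 + pw LinearMap.id (one16 l) + -(0 : Fin 16 → G.L) = one16 l
          rw [map_zero, pw_one16, zero_add, neg_zero, add_zero]
          rfl
        · exact add_neg_cancel (ceD G (one16 l))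
      rwa [e] at h3
    · have := hneg _ (hsm (g (.th r)) _ hf)
      rw [KRep.gen_up, ← map_neg] at this
      have e : -inflF (Disk G) (.th r) (f, 0) = (th16 r f, 0) :=
        Prod.ext (neg_neg (th16 r f)) (by show -(th16 r 0) = _; rw [map_zero, neg_zero])
      rwa [e] at this
  have : P ((Disk G).up w) := by
    rw [Cn_ext (idComm G) w]
    exact hadd _ _ (ha w.1) (hb w.2)
  exact this

instance disk_projective : Projective (Disk G).rep.mod := by
  have : Module.Projective A (Disk G).rep.V :=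
    Module.Projective.of_split (toFreeD G) (ofFreeD G) (ofFreeD_toFreeD G)
  infer_instance

end FreeCone

end Vale.Agent.P176
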