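import Vale.Agent.P176.Rep

/-!
The exterior algebra in four variables as integer matrices, and its window representations.
-/

set_option linter.unusedSectionVars false
set_option linter.unusedSimpArgs false
set_option linter.unusedTactic false
set_option linter.unreachableTactic false

namespace Vale.Agent.P176

/-- Square integer matrices indexed by subsets of four letters. -/
abbrev Mat := Matrix (Fin 16) (Fin 16) ℤ

/-- Whether the letter `r` lies in the subset `j`. -/
def bit (r : Fin 4) (j : Fin 16) : Bool := (j.val / 2 ^ r.val) % 2 == 1

/-- Cardinality of a subset. -/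
def deg (j : Fin 16) : ℕ := (List.finRange 4).countP fun r => bit r j

/-- Wedge with letter `r`: target subset. -/
def tgt (r : Fin 4) (j : Fin 16) : Fin 16 := ⟨(j.val + 2 ^ r.val) % 16, Nat.mod_lt _ (by omega)⟩

/-- Wedge with letter `r`: sign, or zero. -/
def sgn (r : Fin 4) (j : Fin 16) : ℤ :=
  if bit r j then 0 else (-1) ^ ((List.finRange 4).countP fun s => decide (s < r) && bit s j)

/-- Wedge operators. -/
def thM (r : Fin 4) : Mat := Matrix.of fun i j => if i = tgt r j then sgn r j else 0

/-- Contraction operators. -/
def ioM (r : Fin 4) : Mat := (thM r).transpose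

/-- The differential. -/
def dM : Mat :=
  -(thM 1 * thM 2) * ioM 0 + (-(thM 0 * thM 1) - thM 1 * thM 3) * ioM 1 +
    (thM 0 * thM 2 + thM 2 * thM 3) * ioM 2 + thM 1 * thM 2 * ioM 3

/-- Parity. -/
def parM : Mat := Matrix.diagonal fun j => (-1) ^ deg j

theorem thM_anti : ∀ r s, thM r * thM s = -(thM s * thM r) := by decide +kernel

theorem thM_sq : ∀ r, thM r * thM r = 0 := by decide +kernel

theorem dM_sq : dM * dM = 0 := by decide +kernel

theorem dM_th : ∀ r, dM * thM r = Q thM r - thM r * dM := by decide +kernel

theorem thM_deg' : ∀ r : Fin 4, ∀ i j : Fin 16, (thM r i j == 0 || deg i == deg j + 1) = true := by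
  decide +kernel

theorem thM_deg (r : Fin 4) (i j : Fin 16) : thM r i j = 0 ∨ deg i = deg j + 1 := by
  simpa using thM_deg' r i j

theorem dM_deg' : ∀ i j : Fin 16, (dM i j == 0 || deg i == deg j + 1) = true := by
  decide +kernel

theorem dM_deg (i j : Fin 16) : dM i j = 0 ∨ deg i = deg j + 1 := by
  simpa using dM_deg' i j

theorem dM_col0 : ∀ i, dM i 0 = 0 := by decide +kernel

theorem deg_le : ∀ j, deg j ≤ 4 := by decide +kernel

theorem par_th : ∀ r, parM * thM r = -(thM r * parM) := by decide +kernel

theorem par_d : parM * dM = -(dM * parM) := by decide +kernel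

theorem par_par : parM * parM = 1 := by decide +kernel

section Act

variable {L : Type} [AddCommGroup L] [Module ℚ L]

/-- Action of an integer matrix on vectors with entries in `L`. -/
def actM (M : Mat) : Module.End ℚ (Fin 16 → L) where
  toFun f i := ∑ j, M i j • f j
  map_add' f f' := by
    funext i
    simp [smul_add, Finset.sum_add_distrib]
  map_smul' c f := by
    funext i
    simp only [Pi.smul_apply, RingHom.id_apply, Finset.smul_sum]
    exact Finset.sum_congr rfl fun j _ => smul_comm _ _ _

theorem actM_apply (M : Mat) (f : Fin 16 → L) (i : Fin 16) :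
    actM M f i = ∑ j, M i j • f j := rfl

theorem actM_mul (M N : Mat) : (actM (M * N) : Module.End ℚ (Fin 16 → L)) = actM M * actM N := by
  refine LinearMap.ext fun f => funext fun i => ?_
  simp only [Module.End.mul_apply, actM_apply, Matrix.mul_apply, Finset.sum_smul, Finset.smul_sum,
    mul_smul]
  exact Finset.sum_comm

theorem actM_one : (actM 1 : Module.End ℚ (Fin 16 → L)) = 1 := by
  refine LinearMap.ext fun f => funext fun i => ?_
  simp [actM_apply, Matrix.one_apply]

theorem actM_add (M N : Mat) : (actM (M + N) : Module.End ℚ (Fin 16 → L)) = actM M + actM N := by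
  refine LinearMap.ext fun f => funext fun i => ?_
  simp [actM_apply, add_smul, Finset.sum_add_distrib]

theorem actM_zero : (actM 0 : Module.End ℚ (Fin 16 → L)) = 0 := by
  refine LinearMap.ext fun f => funext fun i => ?_
  simp [actM_apply]

/-- Matrices act as a ring of operators. -/
def actHom : Mat →+* Module.End ℚ (Fin 16 → L) where
  toFun := actM
  map_one' := actM_one
  map_mul' := actM_mul
  map_zero' := actM_zero
  map_add' := actM_add

/-- Wedge operators on vectors. -/
def th16 (r : Fin 4) : Module.End ℚ (Fin 16 → L) := actM (thM r)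

/-- Differential on vectors. -/
def d16 : Module.End ℚ (Fin 16 → L) := actM dM

/-- Parity on vectors. -/
def par : Module.End ℚ (Fin 16 → L) := actM parM

/-- Mask to subsets of cardinality `i - s`. -/
def mask (s i : ℕ) : Module.End ℚ (Fin 16 → L) where
  toFun f j := if deg j + s = i then f j else 0
  map_add' f f' := by
    funext j
    by_cases h : deg j + s = i <;> simp [h]
  map_smul' c f := by
    funext j
    by_cases h : deg j + s = i <;> simp [h]

theorem mask_apply (s i : ℕ) (f : Fin 16 → L) (j : Fin 16) :
    mask s i f j = if deg j + s = i then f j else 0 := rfl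

theorem mask_zero_of_six {s i : ℕ} (hs : s ≤ 1) (hi : 6 ≤ i) :
    (mask s i : Module.End ℚ (Fin 16 → L)) = 0 := by
  refine LinearMap.ext fun f => funext fun j => ?_
  have := deg_le j
  simp [mask_apply, show deg j + s ≠ i by omega]

theorem raise_mask (M : Mat) (hM : ∀ i j, M i j = 0 ∨ deg i = deg j + 1) (s i : ℕ)
    (f : Fin 16 → L) : actM M (mask s i f) = mask s (i + 1) (actM M f) := by
  funext k
  simp only [actM_apply, mask_apply]
  by_cases hk : deg k + s = i + 1
  · rw [if_pos hk]
    refine Finset.sum_congr rfl fun j _ => ?_
    by_cases h : M k j = 0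
    · simp [h]
    · have := (hM k j).resolve_left h
      rw [if_pos (by omega)]
  · rw [if_neg hk]
    refine Finset.sum_eq_zero fun j _ => ?_
    by_cases h : M k j = 0
    · simp [h]
    · have := (hM k j).resolve_left h
      rw [if_neg (by omega), smul_zero]

theorem sum_mask (s : ℕ) (hs : s ≤ 1) :
    ∑ i : Fin 6, (mask s i : Module.End ℚ (Fin 16 → L)) = 1 := by
  refine LinearMap.ext fun f => funext fun j => ?_
  have := deg_le j
  simp only [LinearMap.sum_apply, Finset.sum_apply, mask_apply, Module.End.one_apply]
  rw [Finset.sum_eq_single (⟨deg j + s, by omega⟩ : Fin 6)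
    (fun b _ hb => if_neg fun h => hb (Fin.ext h.symm)) (by simp)]
  simp

variable (L)

/-- The exterior algebra tensored with `L`, as a window representation shifted by `s`. -/
noncomputable def C0 (s : ℕ) (hs : s ≤ 1) : KRep where
  V := Fin 16 → L
  e i := mask s i
  th := th16
  d := d16
  h :=
    { orth := fun i j => by
        refine LinearMap.ext fun f => funext fun k => ?_
        by_cases hij : i = j
        · subst hij
          by_cases h : deg k + s = (i : ℕ) <;> simp [mask_apply, h]
        · have : (i : ℕ) ≠ j := fun h => hij (Fin.ext h)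
          by_cases h : deg k + s = (i : ℕ)
          · simp [mask_apply, h, hij, this]
          · simp [mask_apply, h, hij]
      total := sum_mask s hs
      th_e := fun r i => by
        refine LinearMap.ext fun f => ?_
        show actM (thM r) (mask s i f) = _
        rw [raise_mask _ (thM_deg r)]
        by_cases h : (i : ℕ) + 1 < 6
        · simp [ex, h]; rfl
        · simp [ex, h, mask_zero_of_six hs (by omega : 6 ≤ (i : ℕ) + 1)]
      d_e := fun i => by
        refine LinearMap.ext fun f => ?_
        show actM dM (mask s i f) = _
        rw [raise_mask _ dM_deg]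
        by_cases h : (i : ℕ) + 1 < 6
        · simp [ex, h]; rfl
        · simp [ex, h, mask_zero_of_six hs (by omega : 6 ≤ (i : ℕ) + 1)]
      anti := fun r s => by
        have := congrArg (actHom (L := L)) (thM_anti r s)
        rw [map_neg, map_mul, map_mul] at this
        exact this
      sq := fun r => by
        have := congrArg (actHom (L := L)) (thM_sq r)
        rw [map_mul, map_zero] at this
        exact this
      dd := by
        have := congrArg (actHom (L := L)) dM_sq
        rw [map_mul, map_zero] at this
        exact this
      d_th := fun r => by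
        have := congrArg (actHom (L := L)) (dM_th r)
        rw [map_sub, map_mul, map_mul, map_Q] at this
        exact this }

variable {L}

/-- Apply an operator of `L` in every coordinate. -/
def pw {P : Type} [AddCommGroup P] [Module ℚ P] (u : L →ₗ[ℚ] P) :
    (Fin 16 → L) →ₗ[ℚ] (Fin 16 → P) := u.compLeft (Fin 16)

@[simp] theorem pw_apply {P : Type} [AddCommGroup P] [Module ℚ P] (u : L →ₗ[ℚ] P)
    (f : Fin 16 → L) (j : Fin 16) : pw u f j = u (f j) := rfl

theorem pw_actM {P : Type} [AddCommGroup P] [Module ℚ P] (u : L →ₗ[ℚ] P) (M : Mat)
    (f : Fin 16 → L) : pw u (actM M f) = actM M (pw u f) := by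
  funext i
  simp [actM_apply]

theorem pw_mask {P : Type} [AddCommGroup P] [Module ℚ P] (u : L →ₗ[ℚ] P) (s i : ℕ)
    (f : Fin 16 → L) : pw u (mask s i f) = mask s i (pw u f) := by
  funext j
  by_cases h : deg j + s = i <;> simp [mask_apply, h]

end Act

end Vale.Agent.P176
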