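import Vale.Agent.P176.Alg

/-!
Finite dimensionality of the algebra.
-/

set_option linter.unusedSectionVars false
set_option linter.unusedSimpArgs false
set_option linter.unusedTactic false
set_option linter.unreachableTactic false

namespace Vale.Agent.P176

open Submodule

/-- Spans of words of length `n` in the odd arrows and the differential, times idempotents. -/
noncomputable def L : ℕ → Submodule ℚ A
  | 0 => span ℚ (Set.range fun i => g (.e i))
  | n + 1 => (⨆ r, (L n).map (LinearMap.mulLeft ℚ (g (.th r)))) ⊔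
      (L n).map (LinearMap.mulLeft ℚ (g .d))

theorem L_fin : ∀ n, FiniteDimensional ℚ (L n)
  | 0 => FiniteDimensional.span_of_finite ℚ (Set.finite_range _)
  | n + 1 => by
    have := L_fin n
    have h1 : ∀ r, FiniteDimensional ℚ ((L n).map (LinearMap.mulLeft ℚ (g (.th r)))) :=
      fun r => Module.Finite.map (L n) _
    have h2 : FiniteDimensional ℚ ((L n).map (LinearMap.mulLeft ℚ (g .d))) :=
      Module.Finite.map (L n) _
    have h3 := Submodule.finiteDimensional_iSup (fun r => (L n).map (LinearMap.mulLeft ℚ (g (.th r))))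
    rw [L]
    exact Submodule.finiteDimensional_sup _ _

/-- The combined span of all short words. -/
noncomputable def W : Submodule ℚ A := ⨆ n : Fin 6, L n

theorem ex_mul_th (n : ℕ) (r : Fin 4) :
    ex (fun i => g (.e i)) (n + 1) * g (.th r) = g (.th r) * ex (fun i => g (.e i)) n := by
  by_cases h : n < 6
  · rw [show ex (fun i => g (.e i)) n = g (.e ⟨n, h⟩) by simp [ex, h]]
    exact (g_isA.isK.th_e r ⟨n, h⟩).symm
  · have h2 : ¬ n + 1 < 6 := by omega
    simp [ex, h, h2]

theorem ex_mul_d (n : ℕ) :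
    ex (fun i => g (.e i)) (n + 1) * g .d = g .d * ex (fun i => g (.e i)) n := by
  by_cases h : n < 6
  · rw [show ex (fun i => g (.e i)) n = g (.e ⟨n, h⟩) by simp [ex, h]]
    exact (g_isA.isK.d_e ⟨n, h⟩).symm
  · have h2 : ¬ n + 1 < 6 := by omega
    simp [ex, h, h2]

theorem e_eq_ex (i : Fin 6) : g (.e i) = ex (fun i => g (.e i)) i := by simp [ex]

theorem th_mem {x : A} {n : ℕ} (r : Fin 4) (hx : x ∈ L n) : g (.th r) * x ∈ L (n + 1) :=
  mem_sup_left (mem_iSup_of_mem r ⟨x, hx, rfl⟩)

theorem d_mem {x : A} {n : ℕ} (hx : x ∈ L n) : g .d * x ∈ L (n + 1) :=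
  mem_sup_right ⟨x, hx, rfl⟩

theorem L_induction {P : ℕ → A → Prop} (h0 : ∀ i, P 0 (g (.e i)))
    (hz : ∀ n, P n 0) (hadd : ∀ n x y, P n x → P n y → P n (x + y))
    (hsmul : ∀ n (c : ℚ) x, P n x → P n (c • x))
    (hth : ∀ n r x, x ∈ L n → P n x → P (n + 1) (g (.th r) * x))
    (hd : ∀ n x, x ∈ L n → P n x → P (n + 1) (g .d * x)) :
    ∀ n x, x ∈ L n → P n x := by
  intro n
  induction n with
  | zero =>
    intro x hx
    induction hx using span_induction with
    | mem x hx => obtain ⟨i, rfl⟩ := hx; exact h0 i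
    | zero => exact hz 0
    | add x y _ _ a b => exact hadd 0 x y a b
    | smul c x _ a => exact hsmul 0 c x a
  | succ n ih =>
    let S : Submodule ℚ A :=
      { carrier := {x | P (n + 1) x}
        add_mem' := fun a b => hadd _ _ _ a b
        zero_mem' := hz _
        smul_mem' := fun c x a => hsmul _ c x a }
    intro x hx
    have : L (n + 1) ≤ S := by
      refine sup_le (iSup_le fun r => ?_) ?_
      · rintro _ ⟨y, hy, rfl⟩; exact hth n r y hy (ih y hy)
      · rintro _ ⟨y, hy, rfl⟩; exact hd n y hy (ih y hy)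
    exact this hx

theorem L_shift : ∀ n x, x ∈ L n → ∀ m : ℕ,
    ex (fun i => g (.e i)) (m + n) * x = x * ex (fun i => g (.e i)) m := by
  refine L_induction (fun i m => ?_) (fun n m => by simp) (fun n x y a b m => ?_)
    (fun n c x a m => ?_) (fun n r x _ a m => ?_) (fun n x _ a m => ?_)
  · by_cases h : m < 6
    · simp only [ex, add_zero, h, dite_true, g_isA.isK.orth]
      by_cases hi : i = ⟨m, h⟩ <;> simp [hi, eq_comm]
    · simp [ex, h]
  · rw [mul_add, add_mul, a, b]
  · rw [mul_smul_comm, smul_mul_assoc, a]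
  · rw [← add_assoc, ← mul_assoc, ex_mul_th, mul_assoc, a, mul_assoc]
  · rw [← add_assoc, ← mul_assoc, ex_mul_d, mul_assoc, a, mul_assoc]

theorem L_eq_zero {n : ℕ} (hn : 6 ≤ n) {x : A} (hx : x ∈ L n) : x = 0 := by
  rw [← mul_one x, ← g_isA.isK.total, Finset.mul_sum]
  refine Finset.sum_eq_zero fun i _ => ?_
  rw [e_eq_ex i, ← L_shift n x hx i]
  have : ¬ (i : ℕ) + n < 6 := by omega
  simp [ex, this]

theorem L_le_W (n : ℕ) : L n ≤ W := by
  by_cases h : n < 6
  · exact le_iSup (fun n : Fin 6 => L n) ⟨n, h⟩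
  · intro x hx
    rw [L_eq_zero (by omega) hx]
    exact zero_mem _

theorem e_mem (i : Fin 6) : ∀ n x, x ∈ L n → g (.e i) * x ∈ L n := by
  intro n x hx
  induction n generalizing i x with
  | zero =>
    induction hx using span_induction with
    | mem x hx =>
      obtain ⟨j, rfl⟩ := hx
      rw [g_isA.isK.orth]
      split
      · exact subset_span ⟨i, rfl⟩
      · exact zero_mem _
    | zero => simp
    | add x y _ _ a b => rw [mul_add]; exact add_mem a b
    | smul c x _ a => rw [mul_smul_comm]; exact smul_mem _ c a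
  | succ n ih =>
    suffices H : L (n + 1) ≤ (L (n + 1)).comap (LinearMap.mulLeft ℚ (g (.e i))) from H hx
    refine sup_le (iSup_le fun r => ?_) ?_
    · rintro _ ⟨y, hy, rfl⟩
      simp only [Submodule.mem_comap, LinearMap.mulLeft_apply]
      rw [← mul_assoc]
      rcases Fin.eq_zero_or_eq_succ i with rfl | ⟨j, rfl⟩
      · have : g (.e 0) * g (.th r) = 0 := by
          rw [← mul_one (g (.th r)), ← g_isA.isK.total, Finset.mul_sum, Finset.mul_sum]
          refine Finset.sum_eq_zero fun k _ => ?_
          rw [g_isA.isK.th_e, ← mul_assoc]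
          unfold ex
          split
          · rw [g_isA.isK.orth, if_neg (fun hh => by have := congrArg Fin.val hh; simp at this), zero_mul]
          · simp
        rw [this, zero_mul]
        exact zero_mem _
      · have : g (.e j.succ) * g (.th r) = g (.th r) * g (.e j.castSucc) := by
          rw [g_isA.isK.th_e r j.castSucc]
          simp only [ex, Fin.val_castSucc]
          rw [dif_pos (by omega)]
          rfl
        rw [this, mul_assoc]
        exact th_mem r (ih _ y hy)
    · rintro _ ⟨y, hy, rfl⟩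
      simp only [Submodule.mem_comap, LinearMap.mulLeft_apply]
      rw [← mul_assoc]
      rcases Fin.eq_zero_or_eq_succ i with rfl | ⟨j, rfl⟩
      · have : g (.e 0) * g .d = 0 := by
          rw [← mul_one (g .d), ← g_isA.isK.total, Finset.mul_sum, Finset.mul_sum]
          refine Finset.sum_eq_zero fun k _ => ?_
          rw [g_isA.isK.d_e, ← mul_assoc]
          unfold ex
          split
          · rw [g_isA.isK.orth, if_neg (fun hh => by have := congrArg Fin.val hh; simp at this), zero_mul]
          · simp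
        rw [this, zero_mul]
        exact zero_mem _
      · have : g (.e j.succ) * g .d = g .d * g (.e j.castSucc) := by
          rw [g_isA.isK.d_e j.castSucc]
          simp only [ex, Fin.val_castSucc]
          rw [dif_pos (by omega)]
          rfl
        rw [this, mul_assoc]
        exact d_mem (ih _ y hy)

/-- The four back arrows. -/
noncomputable def R : Fin 2 ⊕ Fin 2 → A := Sum.elim (fun v => g (.ra v)) (fun v => g (.rb v))

theorem R_mul_R (v w) : R v * R w = 0 := by
  cases v <;> cases w <;> simp [R, g_isA.aa, g_isA.ab, g_isA.ba, g_isA.bb]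

/-- A spanning left ideal. -/
noncomputable def T : Submodule ℚ A := W ⊔ ⨆ v, W.map (LinearMap.mulLeft ℚ (R v))

theorem W_th (r : Fin 4) {x : A} (hx : x ∈ W) : g (.th r) * x ∈ W := by
  have : W ≤ W.comap (LinearMap.mulLeft ℚ (g (.th r))) :=
    iSup_le fun n y hy => L_le_W _ (th_mem r hy)
  exact this hx

theorem W_d {x : A} (hx : x ∈ W) : g .d * x ∈ W := by
  have : W ≤ W.comap (LinearMap.mulLeft ℚ (g .d)) := iSup_le fun n y hy => L_le_W _ (d_mem hy)
  exact this hx

theorem W_e (i : Fin 6) {x : A} (hx : x ∈ W) : g (.e i) * x ∈ W := by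
  have : W ≤ W.comap (LinearMap.mulLeft ℚ (g (.e i))) :=
    iSup_le fun n y hy => L_le_W _ (e_mem i _ y hy)
  exact this hx

theorem one_mem_W : (1 : A) ∈ W := by
  rw [← g_isA.isK.total]
  exact sum_mem fun i _ => L_le_W 0 (subset_span ⟨i, rfl⟩)

theorem R_mem (v) {x : A} (hx : x ∈ W) : R v * x ∈ T :=
  mem_sup_right (mem_iSup_of_mem v ⟨x, hx, rfl⟩)

theorem e_mul_ra (i : Fin 6) (v : Fin 2) :
    g (.e i) * g (.ra v) = if i = 0 then 0 else g (.ra v) * g (.e i) := by
  have : g (.e i) * g (.ra v) = ∑ j, g (.e i) * (g (.ra v) * g (.e j)) := by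
    rw [← Finset.mul_sum, ← Finset.mul_sum, g_isA.isK.total, mul_one]
  rw [this]
  simp only [g_isA.ra_e, mul_ite, mul_zero, ← mul_assoc, g_isA.isK.orth, ite_mul, zero_mul]
  split_ifs with hi
  · subst hi
    exact Finset.sum_eq_zero fun j _ => by split_ifs <;> simp_all
  · rw [Finset.sum_eq_single i (fun j _ hj => by simp [Ne.symm hj]) (by simp)]
    simp [hi]

theorem e_mul_rb (i : Fin 6) (v : Fin 2) :
    g (.e i) * g (.rb v) = g (.rb v) * ex (fun j => g (.e j)) (i + 1) := by
  have : g (.e i) * g (.rb v) = ∑ j, g (.e i) * (g (.rb v) * g (.e j)) := by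
    rw [← Finset.mul_sum, ← Finset.mul_sum, g_isA.isK.total, mul_one]
  rw [this]
  have key : ∀ j : Fin 6, g (.e i) * (g (.rb v) * g (.e j)) =
      if (j : ℕ) = i + 1 then g (.rb v) * g (.e j) else 0 := by
    intro j
    rw [g_isA.rb_e]
    by_cases hj : j = 0
    · subst hj; simp
    · have hj' : (j : ℕ) ≠ 0 := fun h => hj (Fin.ext h)
      have hlt : (j : ℕ) - 1 < 6 := by omega
      simp only [if_neg hj, ex, dif_pos hlt, ← mul_assoc, g_isA.isK.orth, ite_mul, zero_mul]
      by_cases hc : (j : ℕ) = i + 1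
      · rw [if_pos (Fin.ext (by simp; omega)), if_pos hc]
        congr 3
        exact Fin.ext (by simp; omega)
      · rw [if_neg (fun h => hc (by have := congrArg Fin.val h; simp at this; omega)), if_neg hc]
  simp only [key]
  by_cases h : (i : ℕ) + 1 < 6
  · rw [Finset.sum_eq_single ⟨(i : ℕ) + 1, h⟩
      (fun j _ hj => if_neg fun hh => hj (Fin.ext hh)) (by simp)]
    simp [ex, h]
  · simp only [ex, dif_neg h, mul_zero]
    exact Finset.sum_eq_zero fun j _ => if_neg (by omega)

theorem T_e (i : Fin 6) (v) {x : A} (hx : x ∈ W) : g (.e i) * (R v * x) ∈ T := by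
  rcases v with v | v
  · simp only [R, Sum.elim_inl, ← mul_assoc, e_mul_ra]
    split_ifs
    · simp
    · rw [mul_assoc]; exact R_mem (.inl v) (W_e i hx)
  · simp only [R, Sum.elim_inr, ← mul_assoc, e_mul_rb]
    unfold ex
    split_ifs
    · rw [mul_assoc]; exact R_mem (.inr v) (W_e _ hx)
    · simp

theorem ra_mem (v : Fin 2) {x : A} (hx : x ∈ W) : g (.ra v) * x ∈ T := R_mem (.inl v) hx

theorem rb_mem (v : Fin 2) {x : A} (hx : x ∈ W) : g (.rb v) * x ∈ T := R_mem (.inr v) hx

theorem T_th (r : Fin 4) (v) {x : A} (hx : x ∈ W) : g (.th r) * (R v * x) ∈ T := by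
  rcases v with v | v
  · simp only [R, Sum.elim_inl, ← mul_assoc, g_isA.th_ra]
    rw [neg_mul, mul_assoc]
    exact neg_mem (ra_mem v (W_th r hx))
  · simp only [R, Sum.elim_inr, ← mul_assoc, g_isA.th_rb, add_mul]
    refine add_mem (by rw [mul_assoc]; exact rb_mem v (W_th r hx)) ?_
    fin_cases r <;> fin_cases v <;> simp [ra_mem _ hx]

theorem T_d (v) {x : A} (hx : x ∈ W) : g .d * (R v * x) ∈ T := by
  rcases v with v | v <;> fin_cases v <;>
    simp only [R, Sum.elim_inl, Sum.elim_inr, ← mul_assoc, Fin.zero_eta, Fin.mk_one, g_isA.d_ra0,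
      g_isA.d_ra1, g_isA.d_rb0, g_isA.d_rb1, mul_sub, sub_mul, add_mul] <;>
    (try rw [neg_mul]) <;>
    simp only [sub_mul, mul_assoc]
  · exact add_mem (neg_mem (sub_mem (ra_mem 0 (W_d hx)) (ra_mem 0 (W_th 0 hx))))
      (ra_mem 1 (W_th 1 hx))
  · exact add_mem (neg_mem (sub_mem (ra_mem 1 (W_d hx)) (ra_mem 1 (W_th 3 hx))))
      (ra_mem 0 (W_th 2 hx))
  · exact sub_mem (sub_mem (rb_mem 0 (W_d hx)) (rb_mem 0 (W_th 0 hx))) (rb_mem 1 (W_th 1 hx))
  · exact sub_mem (sub_mem (rb_mem 1 (W_d hx)) (rb_mem 1 (W_th 3 hx))) (rb_mem 0 (W_th 2 hx))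

theorem T_gen (y : Gen) {x : A} (hx : x ∈ T) : g y * x ∈ T := by
  have : T ≤ T.comap (LinearMap.mulLeft ℚ (g y)) := by
    refine sup_le (fun z hz => ?_) (iSup_le fun v => ?_)
    · simp only [Submodule.mem_comap, LinearMap.mulLeft_apply]
      cases y with
      | e i => exact mem_sup_left (W_e i hz)
      | th r => exact mem_sup_left (W_th r hz)
      | d => exact mem_sup_left (W_d hz)
      | ra v => exact ra_mem v hz
      | rb v => exact rb_mem v hz
    · rintro _ ⟨z, hz, rfl⟩
      simp only [Submodule.mem_comap, LinearMap.mulLeft_apply]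
      cases y with
      | e i => exact T_e i v hz
      | th r => exact T_th r v hz
      | d => exact T_d v hz
      | ra w =>
        have := R_mul_R (.inl w) v
        simp only [R, Sum.elim_inl] at this
        rw [← mul_assoc]
        simp [R, this]
      | rb w =>
        have := R_mul_R (.inr w) v
        simp only [R, Sum.elim_inr] at this
        rw [← mul_assoc]
        simp [R, this]
  exact this hx

theorem T_eq_top : T = ⊤ := by
  refine eq_top_iff.2 fun a _ => ?_
  have key : ∀ (p : FreeAlgebra ℚ Gen) (x : A), x ∈ T → proj p * x ∈ T := by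
    intro p
    induction p using FreeAlgebra.induction with
    | grade0 c =>
      intro x hx
      rw [AlgHom.commutes, ← Algebra.smul_def]
      exact smul_mem _ c hx
    | grade1 y => exact fun x hx => T_gen y hx
    | mul p q hp hq => intro x hx; rw [map_mul, mul_assoc]; exact hp _ (hq x hx)
    | add p q hp hq => intro x hx; rw [map_add, add_mul]; exact add_mem (hp x hx) (hq x hx)
  obtain ⟨p, rfl⟩ := proj_surjective a
  simpa using key p 1 (mem_sup_left one_mem_W)

instance : Module.Finite ℚ A := by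
  have hL : ∀ n : Fin 6, FiniteDimensional ℚ (L n) := fun n => L_fin n
  have hW : FiniteDimensional ℚ W := by unfold W; infer_instance
  have hR : ∀ v, FiniteDimensional ℚ (W.map (LinearMap.mulLeft ℚ (R v))) :=
    fun v => Module.Finite.map W _
  have hS := Submodule.finiteDimensional_iSup (fun v => W.map (LinearMap.mulLeft ℚ (R v)))
  have hT : FiniteDimensional ℚ T := Submodule.finiteDimensional_sup _ _
  exact Module.Finite.equiv (LinearEquiv.ofTop _ T_eq_top)

end Vale.Agent.P176
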