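import Vale.Agent.P176.Models

/-!
Finite but unbounded projective dimensions.
-/

set_option linter.unusedSectionVars false
set_option linter.unusedSimpArgs false

namespace Vale.Agent.P176

open CategoryTheory CategoryTheory.Abelian CategoryTheory.Limits

/-- Into the induced module. -/
noncomputable def fToInd (Z : KRep) (h0 : Z.e 0 = 0) : (F Z h0).rep.V →ₗ[A] (Ind Z h0).V :=
  homOfGen (toInd Z h0 ∘ₗ LinearMap.inr ℚ Z.V (V4 Z.V) ∘ₗ (F Z h0).down) fun x m => by
    obtain ⟨w, rfl⟩ : ∃ w, (F Z h0).up w = m := ⟨m, rfl⟩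
    rw [KRep.gen_up]
    show toInd Z h0 (0, inflF (F Z h0) x w) = g x • toInd Z h0 (0, w)
    rw [gen_toInd]
    congr 1
    cases x with
    | e i => exact Prod.ext (map_zero (Z.e i)).symm rfl
    | th r => exact Prod.ext (map_zero (Z.th r)).symm rfl
    | d => exact Prod.ext (map_zero Z.d).symm rfl
    | ra v => fin_cases v <;> rfl
    | rb v => fin_cases v <;> rfl

/-- Onto the inflated module. -/
noncomputable def indToTop (Z : KRep) (h0 : Z.e 0 = 0) : (Ind Z h0).V →ₗ[A] Z.rep.V :=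
  homOfGen (M := (Ind Z h0).V) (Z.up ∘ₗ LinearMap.fst ℚ Z.V (V4 Z.V) ∘ₗ ofInd Z h0) fun x m => by
    obtain ⟨q, rfl⟩ : ∃ q, toInd Z h0 q = m := ⟨m, rfl⟩
    rw [gen_toInd]
    show Z.up (indF Z x q).1 = g x • Z.up q.1
    rw [KRep.gen_up]
    cases x <;> rfl

theorem transSes_exact (Z : KRep) (h0 : Z.e 0 = 0) :
    ∃ h, (ses (fToInd Z h0) (indToTop Z h0) h).ShortExact := by
  have he : Function.Exact (fToInd Z h0) (indToTop Z h0) := by
    intro y
    obtain ⟨q, rfl⟩ : ∃ q, toInd Z h0 q = y := ⟨y, rfl⟩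
    constructor
    · intro h
      have h' : q.1 = 0 := h
      exact ⟨(F Z h0).up q.2, congrArg (toInd Z h0) (Prod.ext h'.symm rfl)⟩
    · rintro ⟨x, hx⟩
      have h' : (0 : Z.V) = q.1 := congrArg Prod.fst hx
      exact h'.symm
  exact ⟨he.linearMap_comp_eq_zero, ses_exact (fToInd Z h0) (indToTop Z h0) (fun _ _ h => congrArg Prod.snd h)
    (fun z => ⟨toInd Z h0 (Z.down z, 0), rfl⟩) he⟩

/-- Morphism from a window homomorphism. -/
noncomputable def repHom {Z W : KRep} (φ : Z.V →ₗ[ℚ] W.V) (h : IsMap Z W φ) :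
    Z.rep.mod ⟶ W.rep.mod := ModuleCat.ofHom (repMap φ h)

theorem zeroComm (G : Gl) (r : Fin 4) (x : G.L) :
    (0 : G.L →ₗ[ℚ] G.L) (G.u r x) = G.u r ((0 : G.L →ₗ[ℚ] G.L) x) := by simp

/-- The split cone. -/
noncomputable abbrev W0 (G : Gl) : KRep := Cn G 0 (zeroComm G)

/-- The complex is a retract of the split cone. -/
noncomputable def z0Retract (G : Gl) : Retract (Z0 G).rep.mod (W0 G).rep.mod where
  i := repHom (LinearMap.inr ℚ (Fin 16 → G.L) (Fin 16 → G.L))
    { he := fun i z => Prod.ext (map_zero (mask (L := G.L) 1 (i : ℕ))).symm rfl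
      hth := fun r z => Prod.ext (map_zero (-th16 (L := G.L) r)).symm rfl
      hd := fun z => Prod.ext (by
        show (0 : Fin 16 → G.L) = (-ceD G) 0 + pw (0 : G.L →ₗ[ℚ] G.L) z
        funext j
        simp) rfl }
  r := repHom (projMap G 0 (zeroComm G)) (projMap_isMap G 0 (zeroComm G))
  retract := ModuleCat.hom_ext (LinearMap.ext fun _ => rfl)

section Step

variable (m : ℕ)

/-- Cone over the translated irreducible module. -/
noncomputable abbrev Wm : KRep := Wp (L₀ (m + 1))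

/-- Projection of cones. -/
noncomputable def toN : (Wm m).V →ₗ[ℚ] (W0 (L₀ m)).V :=
  cnMap (φ := phiP (L₀ (m + 1))) (hφ := phiP_comm (L₀ (m + 1))) (ψ := 0) (hψ := zeroComm (L₀ m)) (piN m) (piN m)

/-- Inclusion of cones. -/
noncomputable def fromN : (W0 (L₀ m)).V →ₗ[ℚ] (Wm m).V :=
  cnMap (φ := 0) (hφ := zeroComm (L₀ m)) (ψ := phiP (L₀ (m + 1))) (hψ := phiP_comm (L₀ (m + 1))) (iN m) (iN m)

/-- Projection to the disk. -/
noncomputable def toD : (Wm m).V →ₗ[ℚ] (Disk (Pair (L₀ (m + 1)))).V :=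
  cnMap (φ := phiP (L₀ (m + 1))) (hφ := phiP_comm (L₀ (m + 1))) (ψ := LinearMap.id)
    (hψ := idComm (Pair (L₀ (m + 1)))) (((m : ℚ) + 1)⁻¹ • cN m) (cN m)

/-- Inclusion of the disk. -/
noncomputable def fromD : (Disk (Pair (L₀ (m + 1)))).V →ₗ[ℚ] (Wm m).V :=
  cnMap (φ := LinearMap.id) (hφ := idComm (Pair (L₀ (m + 1)))) (ψ := phiP (L₀ (m + 1)))
    (hψ := phiP_comm (L₀ (m + 1))) (((m : ℚ) + 1) • cN m) (cN m)

theorem toN_isMap : IsMap (Wm m) (W0 (L₀ m)) (toN m) :=
  cnMap_isMap (φ := phiP (L₀ (m + 1))) (hφ := phiP_comm (L₀ (m + 1))) (ψ := 0) (hψ := zeroComm (L₀ m))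
    (fa := piN m) (fb := piN m) (piN_comm m) (piN_comm m) fun p => by
    rw [phi_eq, map_smul, piN_cN, smul_zero]; rfl

theorem fromN_isMap : IsMap (W0 (L₀ m)) (Wm m) (fromN m) :=
  cnMap_isMap (φ := 0) (hφ := zeroComm (L₀ m)) (ψ := phiP (L₀ (m + 1))) (hψ := phiP_comm (L₀ (m + 1)))
    (fa := iN m) (fb := iN m) (fun r x => (iN_comm m r x).symm) (fun r x => (iN_comm m r x).symm) fun q => by
    rw [phi_eq, cN_iN, smul_zero, LinearMap.zero_apply, map_zero]

theorem toD_isMap : IsMap (Wm m) (Disk (Pair (L₀ (m + 1)))) (toD m) :=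
  cnMap_isMap (φ := phiP (L₀ (m + 1))) (hφ := phiP_comm (L₀ (m + 1))) (ψ := LinearMap.id)
    (hψ := idComm (Pair (L₀ (m + 1)))) (fa := ((m : ℚ) + 1)⁻¹ • cN m) (fb := cN m) (fun r x => by rw [LinearMap.smul_apply, LinearMap.smul_apply, cN_comm, map_smul]) (cN_comm m) fun p => by
    rw [phi_eq, LinearMap.smul_apply, map_smul, smul_smul, inv_mul_cancel₀ (mne m), one_smul,
      cN_cN]
    rfl

theorem fromD_isMap : IsMap (Disk (Pair (L₀ (m + 1)))) (Wm m) (fromD m) :=
  cnMap_isMap (φ := LinearMap.id) (hφ := idComm (Pair (L₀ (m + 1))))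
    (ψ := phiP (L₀ (m + 1))) (hψ := phiP_comm (L₀ (m + 1))) (fa := ((m : ℚ) + 1) • cN m) (fb := cN m) (fun r x => by rw [LinearMap.smul_apply, LinearMap.smul_apply, cN_comm, map_smul]) (cN_comm m) fun p => by
    rw [phi_eq, cN_cN]
    rfl

/-- The cone splits into the split cone and a disk. -/
noncomputable def coneRetract : Retract (Wm m).rep.mod
    ((W0 (L₀ m)).rep.mod ⊞ (Disk (Pair (L₀ (m + 1)))).rep.mod) where
  i := biprod.lift (repHom _ (toN_isMap m)) (repHom _ (toD_isMap m))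
  r := biprod.desc (repHom _ (fromN_isMap m)) (repHom _ (fromD_isMap m))
  retract := by
    rw [biprod.lift_desc]
    refine ModuleCat.hom_ext (LinearMap.ext fun w => ?_)
    obtain ⟨z, rfl⟩ : ∃ z, (Wm m).up z = w := ⟨w, rfl⟩
    show (Wm m).up (fromN m (toN m z)) + (Wm m).up (fromD m (toD m z)) = (Wm m).up z
    rw [← map_add]
    refine congrArg _ (Prod.ext (funext fun j => ?_) (funext fun j => ?_))
    · show iN m (piN m (z.1 j)) +
        ((m : ℚ) + 1) • cN m (((m : ℚ) + 1)⁻¹ • cN m (z.1 j)) = z.1 j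
      rw [map_smul, smul_smul, mul_inv_cancel₀ (mne m), one_smul, cN_cN, cN_apply,
        add_sub_cancel]
    · show iN m (piN m (z.2 j)) + cN m (cN m (z.2 j)) = z.2 j
      rw [cN_cN, cN_apply, add_sub_cancel]

/-- The split cone is a retract of the cone. -/
noncomputable def splitRetract : Retract (W0 (L₀ m)).rep.mod (Wm m).rep.mod where
  i := repHom _ (fromN_isMap m)
  r := repHom _ (toN_isMap m)
  retract := by
    refine ModuleCat.hom_ext (LinearMap.ext fun w => ?_)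
    obtain ⟨z, rfl⟩ : ∃ z, (W0 (L₀ m)).up z = w := ⟨w, rfl⟩
    show (W0 (L₀ m)).up (toN m (fromN m z)) = (W0 (L₀ m)).up z
    exact congrArg _ (Prod.ext (funext fun j => piN_iN m (z.1 j))
      (funext fun j => piN_iN m (z.2 j)))

end Step

/-- The translation is isomorphic to the cone. -/
noncomputable def transIso (G : Gl) : (Wp G).rep.mod ≅ (FZ G).rep.mod :=
  (LinearEquiv.ofBijective (repMap (Psi G) (Psi_isMap G)) (Psi_bij G)).toModuleIso

theorem z1_finite_pd : ∀ m, ∃ N, HasProjectiveDimensionLT (Z1 (L₀ m)).rep.mod N := by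
  intro m
  induction m with
  | zero =>
    refine ⟨0, ?_⟩
    have h : Subsingleton (Fin 16 → (L₀ 0).L) :=
      ⟨fun a b => funext fun j => (seqs_zero _).trans (seqs_zero _).symm⟩
    have : Subsingleton (Z1 (L₀ 0)).rep.V := h
    exact (ModuleCat.isZero_of_subsingleton _).hasProjectiveDimensionLT_zero
  | succ m ih =>
    obtain ⟨N, hN⟩ := ih
    have hS := coneSes_exact (L₀ m) LinearMap.id (idComm (L₀ m))
    haveI : Projective (coneSes (L₀ m) LinearMap.id (idComm (L₀ m))).X₂ := disk_projective (L₀ m)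
    have h0 : HasProjectiveDimensionLT (Z0 (L₀ m)).rep.mod (N + 1) :=
      hS.hasProjectiveDimensionLT_X₃ N hN (hasProjectiveDimensionLT_of_ge _ 1 _ (by omega))
    have h1 : HasProjectiveDimensionLT (W0 (L₀ m)).rep.mod (N + 6) :=
      (coneSes_exact (L₀ m) 0 (zeroComm (L₀ m))).hasProjectiveDimensionLT_X₂ (N + 6)
        (@hasProjectiveDimensionLT_of_ge _ _ _ _ N (N + 6) (by omega) hN)
        (@hasProjectiveDimensionLT_of_ge _ _ _ _ (N + 1) (N + 6) (by omega) h0)
    haveI := h1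
    haveI : Projective (Disk (Pair (L₀ (m + 1)))).rep.mod := disk_projective _
    haveI : HasProjectiveDimensionLT (Disk (Pair (L₀ (m + 1)))).rep.mod (N + 6) :=
      hasProjectiveDimensionLT_of_ge _ 1 _ (by omega)
    haveI h2 : HasProjectiveDimensionLT (Wm m).rep.mod (N + 6) :=
      (coneRetract m).hasProjectiveDimensionLT (N + 6)
    have h3 : HasProjectiveDimensionLT (FZ (L₀ (m + 1))).rep.mod (N + 6) :=
      hasProjectiveDimensionLT_of_iso (transIso (L₀ (m + 1))) _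
    obtain ⟨hh, hT⟩ := transSes_exact (Z1 (L₀ (m + 1))) (Z1_e0 _)
    refine ⟨N + 6 + 1, hT.hasProjectiveDimensionLT_X₃ (N + 6) h3 ?_⟩
    exact @hasProjectiveDimensionLT_of_ge _ _ _ _ 6 (N + 6 + 1) (by omega)
      (ind_pd (Z1 (L₀ (m + 1))) (Z1_e0 _))

theorem z1_step {m q : ℕ} (h : ¬ ExtZero (Wm m).rep.mod q) :
    ¬ ExtZero (Z1 (L₀ (m + 1))).rep.mod (q + 1) := by
  intro hz
  obtain ⟨hh, hT⟩ := transSes_exact (Z1 (L₀ (m + 1))) (Z1_e0 _)
  have h1 : ExtZero (FZ (L₀ (m + 1))).rep.mod q := extZero_X₁ hT (ind_extZero _ _ q) hz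
  exact h (extZero_of_retract
    { i := (transIso (L₀ (m + 1))).hom, r := (transIso (L₀ (m + 1))).inv,
      retract := (transIso (L₀ (m + 1))).hom_inv_id } h1)

theorem z1_lower : ∀ n : ℕ, ∃ q, n + 1 ≤ q ∧ ¬ ExtZero (Z1 (L₀ (n + 1))).rep.mod q := by
  intro n
  induction n with
  | zero =>
    obtain ⟨ψ, p, hp⟩ := pair_functional
    exact ⟨1, le_rfl, z1_step (m := 0) (cone_hom_ne (Pair (L₀ 1)) (phiP (L₀ 1))
      (phiP_comm (L₀ 1)) ψ p hp)⟩
  | succ n ih =>
    obtain ⟨q, hq, hne⟩ := ih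
    obtain ⟨q', rfl⟩ : ∃ q', q = q' + 1 := ⟨q - 1, by omega⟩
    refine ⟨q' + 3, by omega, z1_step (m := n + 1) fun hW => ?_⟩
    have hW0 : ExtZero (W0 (L₀ (n + 1))).rep.mod (q' + 2) :=
      extZero_of_retract (splitRetract (n + 1)) hW
    have hZ0 : ExtZero (Z0 (L₀ (n + 1))).rep.mod (q' + 2) :=
      extZero_of_retract (z0Retract (L₀ (n + 1))) hW0
    haveI : Projective (coneSes (L₀ (n + 1)) LinearMap.id (idComm (L₀ (n + 1)))).X₂ :=
      disk_projective (L₀ (n + 1))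
    exact hne (extZero_X₁ (coneSes_exact (L₀ (n + 1)) LinearMap.id (idComm (L₀ (n + 1))))
      (extZero_projective q') hZ0)

theorem z1_module_finite (m : ℕ) : Module.Finite A (Z1 (L₀ m)).rep.mod := by
  haveI := seqs_finite m
  haveI : Module.Finite ℚ (Z1 (L₀ m)).rep.V :=
    (inferInstance : Module.Finite ℚ (Fin 16 → (L₀ m).L))
  exact Module.Finite.of_restrictScalars_finite ℚ A (Z1 (L₀ m)).rep.V

/-- Finitely generated modules of finite but arbitrarily large projective dimension. -/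
theorem unbounded (N : ℕ) : ∃ M : ModuleCat.{0} A, Module.Finite A M ∧
    projectiveDimension M ≠ ⊤ ∧ ¬ projectiveDimension M ≤ N := by
  refine ⟨(Z1 (L₀ (N + 1 + 1))).rep.mod, z1_module_finite _, ?_, ?_⟩
  · obtain ⟨d, hd⟩ := z1_finite_pd (N + 1 + 1)
    rw [projectiveDimension_ne_top_iff]
    exact ⟨d, @hasProjectiveDimensionLT_of_ge _ _ _ _ d (d + 1) (by omega) hd⟩
  · intro h
    rw [projectiveDimension_le_iff] at h
    obtain ⟨q, hq, hne⟩ := z1_lower (N + 1)
    exact hne fun e => @Ext.eq_zero_of_hasProjectiveDimensionLT _ _ _ _ _ _ _ e (N + 1) h (by omega)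

end Vale.Agent.P176
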