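import Vale.Agent.P176.Trans

/-!
The irreducible modules and their decomposition after translation.
-/

set_option linter.unusedSectionVars false
set_option linter.unusedSimpArgs false
set_option linter.unusedTactic false
set_option linter.unreachableTactic false

namespace Vale.Agent.P176

/-- Operators on coefficient sequences. -/
def opU (n : ℚ) : Fin 4 → Module.End ℚ (ℕ → ℚ) :=
  ![{ toFun := fun f k => (k : ℚ) * f k
      map_add' := fun f f' => funext fun k => by simp [mul_add]
      map_smul' := fun c f => funext fun k => by simp; ring },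
    { toFun := fun f k => if k = 0 then 0 else (n - (k - 1 : ℕ)) * f (k - 1)
      map_add' := fun f f' => funext fun k => by by_cases h : k = 0 <;> simp [h, mul_add]
      map_smul' := fun c f => funext fun k => by by_cases h : k = 0 <;> simp [h]; ring },
    { toFun := fun f k => ((k : ℚ) + 1) * f (k + 1)
      map_add' := fun f f' => funext fun k => by simp [mul_add]
      map_smul' := fun c f => funext fun k => by simp; ring },
    { toFun := fun f k => (n - k) * f k
      map_add' := fun f f' => funext fun k => by simp [mul_add]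
      map_smul' := fun c f => funext fun k => by simp; ring }]

theorem opU0 (n : ℚ) (f : ℕ → ℚ) (k : ℕ) : opU n 0 f k = (k : ℚ) * f k := rfl

theorem opU1 (n : ℚ) (f : ℕ → ℚ) (k : ℕ) :
    opU n 1 f k = if k = 0 then 0 else (n - (k - 1 : ℕ)) * f (k - 1) := rfl

theorem opU2 (n : ℚ) (f : ℕ → ℚ) (k : ℕ) : opU n 2 f k = ((k : ℚ) + 1) * f (k + 1) := rfl

theorem opU3 (n : ℚ) (f : ℕ → ℚ) (k : ℕ) : opU n 3 f k = (n - k) * f k := rfl

/-- Sequences supported below `m`. -/
def seqs (m : ℕ) : Submodule ℚ (ℕ → ℚ) where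
  carrier := {f | ∀ k, m ≤ k → f k = 0}
  add_mem' := fun hf hg k hk => by simp [hf k hk, hg k hk]
  zero_mem' := fun k _ => rfl
  smul_mem' := fun c f hf k hk => by simp [hf k hk]

theorem opU_mem (m : ℕ) (r : Fin 4) (f : ℕ → ℚ) (hf : f ∈ seqs m) :
    opU ((m : ℚ) - 1) r f ∈ seqs m := by
  intro k hk
  fin_cases r
  · show opU _ 0 f k = 0
    rw [opU0, hf k hk, mul_zero]
  · show opU _ 1 f k = 0
    rw [opU1]
    by_cases h : k = 0
    · rw [if_pos h]
    · rw [if_neg h]
      by_cases h' : m ≤ k - 1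
      · rw [hf _ h', mul_zero]
      · have : k - 1 + 1 = m := by omega
        have hm : (m : ℚ) = ((k - 1 : ℕ) : ℚ) + 1 := by exact_mod_cast this.symm
        rw [hm]; ring
  · show opU _ 2 f k = 0
    rw [opU2, hf (k + 1) (by omega), mul_zero]
  · show opU _ 3 f k = 0
    rw [opU3, hf k hk, mul_zero]

/-- Restricted operators. -/
def seqU (m : ℕ) (r : Fin 4) : Module.End ℚ (seqs m) :=
  (opU ((m : ℚ) - 1) r).restrict (opU_mem m r)

theorem seqU_coe (m : ℕ) (r : Fin 4) (f : seqs m) :
    (seqU m r f : ℕ → ℚ) = opU ((m : ℚ) - 1) r f := rfl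

/-- The irreducible module of dimension `m`. -/
noncomputable def L₀ (m : ℕ) : Gl where
  L := seqs m
  u := seqU m
  h01 x := by
    refine Subtype.ext (funext fun k => ?_)
    cases k <;> simp [seqU_coe, opU0, opU1] <;> ring
  h02 x := by
    refine Subtype.ext (funext fun k => ?_)
    simp [seqU_coe, opU0, opU2]
    ring
  h03 x := by
    refine Subtype.ext (funext fun k => ?_)
    simp [seqU_coe, opU0, opU3]
    ring
  h12 x := by
    refine Subtype.ext (funext fun k => ?_)
    cases k <;> simp [seqU_coe, opU0, opU1, opU2, opU3] <;> ring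
  h13 x := by
    refine Subtype.ext (funext fun k => ?_)
    cases k <;> simp [seqU_coe, opU1, opU3] <;> ring
  h23 x := by
    refine Subtype.ext (funext fun k => ?_)
    simp [seqU_coe, opU2, opU3]
    ring

/-- Values of a vector. -/
noncomputable def val (m : ℕ) : (L₀ m).L →ₗ[ℚ] (ℕ → ℚ) := (seqs m).subtype

theorem val_mem (m : ℕ) (q : (L₀ m).L) : ∀ k, m ≤ k → val m q k = 0 := q.2

theorem val_ext {m : ℕ} {q q' : (L₀ m).L} (h : ∀ k, val m q k = val m q' k) : q = q' :=
  Subtype.ext (funext h)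

theorem val_u (m : ℕ) (r : Fin 4) (q : (L₀ m).L) :
    val m ((L₀ m).u r q) = opU ((m : ℚ) - 1) r (val m q) := rfl

/-- Multiplication by the first variable. -/
noncomputable def incl0 (m : ℕ) : (L₀ m).L →ₗ[ℚ] (L₀ (m + 1)).L where
  toFun q := ⟨fun k => if k = 0 then 0 else val m q (k - 1),
    fun k hk => by
      show (if k = 0 then 0 else val m q (k - 1)) = 0
      rw [if_neg (by omega), val_mem m q (k - 1) (by omega)]⟩
  map_add' q q' := val_ext fun k => by
    show (if k = 0 then 0 else val m (q + q') (k - 1)) =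
      (if k = 0 then 0 else val m q (k - 1)) + (if k = 0 then 0 else val m q' (k - 1))
    by_cases h : k = 0 <;> simp [h]
  map_smul' c q := val_ext fun k => by
    show (if k = 0 then 0 else val m (c • q) (k - 1)) =
      c * (if k = 0 then 0 else val m q (k - 1))
    by_cases h : k = 0 <;> simp [h]

/-- Multiplication by the second variable. -/
noncomputable def incl1 (m : ℕ) : (L₀ m).L →ₗ[ℚ] (L₀ (m + 1)).L where
  toFun q := ⟨val m q, fun k hk => val_mem m q k (by omega)⟩
  map_add' q q' := val_ext fun k => by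
    show val m (q + q') k = val m q k + val m q' k
    simp
  map_smul' c q := val_ext fun k => by
    show val m (c • q) k = c * val m q k
    simp

theorem val_incl0 (m : ℕ) (q : (L₀ m).L) (k : ℕ) :
    val (m + 1) (incl0 m q) k = if k = 0 then 0 else val m q (k - 1) := rfl

theorem val_incl1 (m : ℕ) (q : (L₀ m).L) (k : ℕ) : val (m + 1) (incl1 m q) k = val m q k := rfl

/-- Inclusion of the smaller module. -/
noncomputable def iN (m : ℕ) : (L₀ m).L →ₗ[ℚ] (Pair (L₀ (m + 1))).L :=
  (incl0 m).prod (incl1 m)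

/-- Divergence. -/
noncomputable def piFun (m : ℕ) (p : (Pair (L₀ (m + 1))).L) (k : ℕ) : ℚ :=
  (((k : ℚ) + 1) * val (m + 1) p.1 (k + 1) + ((m : ℚ) - k) * val (m + 1) p.2 k) / ((m : ℚ) + 1)

/-- Projection to the smaller module. -/
noncomputable def piN (m : ℕ) : (Pair (L₀ (m + 1))).L →ₗ[ℚ] (L₀ m).L where
  toFun p := ⟨piFun m p, fun k hk => by
    show piFun m p k = 0
    rw [piFun, val_mem (m + 1) p.1 (k + 1) (by omega)]
    by_cases h : m = k
    · subst h; simp
    · rw [val_mem (m + 1) p.2 k (by omega)]; simp⟩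
  map_add' p p' := val_ext fun k => by
    show piFun m (p + p') k = piFun m p k + piFun m p' k
    simp only [piFun, Prod.fst_add, Prod.snd_add, map_add, Pi.add_apply]
    ring
  map_smul' c p := val_ext fun k => by
    show piFun m (c • p) k = c * piFun m p k
    simp only [piFun, Prod.smul_fst, Prod.smul_snd, map_smul, Pi.smul_apply, smul_eq_mul]
    ring

theorem val_piN (m : ℕ) (p : (Pair (L₀ (m + 1))).L) (k : ℕ) :
    val m (piN m p) k = piFun m p k := rfl

theorem mne (m : ℕ) : (m : ℚ) + 1 ≠ 0 := by positivity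

theorem piN_iN (m : ℕ) (q : (L₀ m).L) : piN m (iN m q) = q := by
  refine val_ext fun k => ?_
  have h0 := mne m
  show (((k : ℚ) + 1) * val (m + 1) (incl0 m q) (k + 1) +
    ((m : ℚ) - k) * val (m + 1) (incl1 m q) k) / ((m : ℚ) + 1) = _
  rw [val_incl0, val_incl1, if_neg (Nat.succ_ne_zero k), Nat.add_sub_cancel]
  field_simp
  ring

theorem iN_comm (m : ℕ) (r : Fin 4) (q : (L₀ m).L) :
    (Pair (L₀ (m + 1))).u r (iN m q) = iN m ((L₀ m).u r q) := by
  fin_cases r <;>
    simp only [pairU, iN, LinearMap.prod_apply, Function.prod_apply, Fin.zero_eta, Fin.mk_one,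
      Fin.reduceFinMk, Matrix.cons_val_zero, Matrix.cons_val_one, Matrix.cons_val,
      LinearMap.sub_apply, LinearMap.comp_apply, LinearMap.fst_apply, LinearMap.snd_apply] <;>
    refine Prod.ext (val_ext fun k => ?_) (val_ext fun k => ?_) <;> rcases k with _ | _ | k <;>
    simp [map_sub, val_u, opU0, opU1, opU2, opU3, val_incl0, val_incl1] <;>
    (try (first | ring1 | (ring_nf; simp)))

/-- The complementary projection. -/
noncomputable def cN (m : ℕ) : (Pair (L₀ (m + 1))).L →ₗ[ℚ] (Pair (L₀ (m + 1))).L :=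
  LinearMap.id - iN m ∘ₗ piN m

theorem cN_apply (m : ℕ) (p : (Pair (L₀ (m + 1))).L) : cN m p = p - iN m (piN m p) := rfl

theorem phi_eq (m : ℕ) (p : (Pair (L₀ (m + 1))).L) :
    phiP (L₀ (m + 1)) p = ((m : ℚ) + 1) • cN m p := by
  have h0 := mne m
  have hv : ∀ k, val m (piN m p) k =
      (((k : ℚ) + 1) * val (m + 1) p.1 (k + 1) + ((m : ℚ) - k) * val (m + 1) p.2 k) /
        ((m : ℚ) + 1) := fun k => rfl
  rw [cN_apply]
  refine Prod.ext (val_ext fun k => ?_) (val_ext fun k => ?_) <;>
    simp only [phiP, iN, LinearMap.prod_apply, Function.prod_apply,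
      LinearMap.sub_apply, LinearMap.add_apply, LinearMap.comp_apply, LinearMap.fst_apply,
      LinearMap.snd_apply, Prod.smul_fst, Prod.smul_snd, Prod.fst_sub, Prod.snd_sub,
      map_add, map_sub, map_smul, Pi.add_apply, Pi.sub_apply, Pi.smul_apply, smul_eq_mul,
      val_u, opU0, opU1, opU2, opU3, val_incl0, val_incl1] <;>
    cases k <;> simp [hv] <;> field_simp <;> ring

theorem iN_injective (m : ℕ) : Function.Injective (iN m) :=
  Function.LeftInverse.injective (piN_iN m)

theorem cN_comm (m : ℕ) (r : Fin 4) (p : (Pair (L₀ (m + 1))).L) :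
    cN m ((Pair (L₀ (m + 1))).u r p) = (Pair (L₀ (m + 1))).u r (cN m p) := by
  have h := phiP_comm (L₀ (m + 1)) r p
  rw [phi_eq, phi_eq, map_smul] at h
  exact smul_right_injective _ (mne m) h

theorem piN_comm (m : ℕ) (r : Fin 4) (p : (Pair (L₀ (m + 1))).L) :
    piN m ((Pair (L₀ (m + 1))).u r p) = (L₀ m).u r (piN m p) := by
  apply iN_injective m
  have h := cN_comm m r p
  rw [cN_apply, cN_apply, map_sub, iN_comm] at h
  exact sub_right_injective h

theorem piN_cN (m : ℕ) (p : (Pair (L₀ (m + 1))).L) : piN m (cN m p) = 0 := by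
  rw [cN_apply, map_sub, piN_iN, sub_self]

theorem cN_iN (m : ℕ) (q : (L₀ m).L) : cN m (iN m q) = 0 := by
  rw [cN_apply, piN_iN, sub_self]

theorem cN_cN (m : ℕ) (p : (Pair (L₀ (m + 1))).L) : cN m (cN m p) = cN m p := by
  rw [cN_apply m (cN m p), piN_cN, map_zero, sub_zero]

theorem seqs_finite (m : ℕ) : Module.Finite ℚ (L₀ m).L := by
  let e : (L₀ m).L →ₗ[ℚ] (Fin m → ℚ) := LinearMap.pi fun j => (LinearMap.proj (j : ℕ)) ∘ₗ val m
  refine Module.Finite.of_injective e fun x y h => val_ext fun k => ?_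
  by_cases hk : k < m
  · exact congrFun h ⟨k, hk⟩
  · rw [val_mem m x k (by omega), val_mem m y k (by omega)]

theorem seqs_zero (q : (L₀ 0).L) : q = 0 :=
  val_ext fun k => by rw [val_mem 0 q k (Nat.zero_le k), map_zero]; rfl

/-- A nonzero functional witness on the pair module of the one-dimensional module. -/
theorem pair_functional : ∃ (ψ : (Pair (L₀ 1)).L →ₗ[ℚ] ℚ) (p : (Pair (L₀ 1)).L), ψ p ≠ 0 := by
  let one : (L₀ 1).L := ⟨fun k => if k = 0 then 1 else 0, fun k hk => if_neg (by omega)⟩
  refine ⟨LinearMap.proj 0 ∘ₗ val 1 ∘ₗ LinearMap.fst ℚ _ _, (one, 0), ?_⟩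
  show (if (0 : ℕ) = 0 then (1 : ℚ) else 0) ≠ 0
  simp

end Vale.Agent.P176
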