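import Vale.Agent.P176.Finite

/-!
Modules over the algebra from generators; the window representations.
-/

set_option linter.unusedSectionVars false
set_option linter.unusedSimpArgs false
set_option linter.unusedTactic false
set_option linter.unreachableTactic false

namespace Vale.Agent.P176

/-- A representation: a rational vector space with operators satisfying the relations. -/
structure Rep where
  V : Type
  [ac : AddCommGroup V]
  [md : Module ℚ V]
  f : Gen → Module.End ℚ V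
  h : IsA f

attribute [instance] Rep.ac Rep.md

noncomputable instance (M : Rep) : Module A M.V := Module.compHom M.V (liftA M.f M.h).toRingHom

theorem Rep.smul_def (M : Rep) (a : A) (m : M.V) : a • m = liftA M.f M.h a m := rfl

@[simp] theorem Rep.gen_smul (M : Rep) (x : Gen) (m : M.V) : g x • m = M.f x m := by
  rw [Rep.smul_def, liftA_g]

instance (M : Rep) : IsScalarTower ℚ A M.V :=
  ⟨fun c a m => by simp [Rep.smul_def]⟩

instance (M : Rep) : SMulCommClass A ℚ M.V :=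
  ⟨fun a c m => by simp [Rep.smul_def]⟩

/-- A linear map commuting with generators is linear over the algebra. -/
theorem map_smul_of_gen {M N : Type*} [AddCommGroup M] [Module ℚ M] [Module A M]
    [IsScalarTower ℚ A M] [AddCommGroup N] [Module ℚ N] [Module A N] [IsScalarTower ℚ A N]
    (φ : M →ₗ[ℚ] N) (h : ∀ x m, φ (g x • m) = g x • φ m) (a : A) (m : M) :
    φ (a • m) = a • φ m := by
  obtain ⟨p, rfl⟩ := proj_surjective a
  induction p using FreeAlgebra.induction generalizing m with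
  | grade0 c => rw [AlgHom.commutes, algebraMap_smul, algebraMap_smul, map_smul]
  | grade1 x => exact h x m
  | mul p q hp hq => rw [map_mul, mul_smul, mul_smul, hp, hq]
  | add p q hp hq => rw [map_add, add_smul, add_smul, map_add, hp, hq]

/-- The map given by generators, as a linear map over the algebra. -/
def homOfGen {M N : Type*} [AddCommGroup M] [Module ℚ M] [Module A M]
    [IsScalarTower ℚ A M] [AddCommGroup N] [Module ℚ N] [Module A N] [IsScalarTower ℚ A N]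
    (φ : M →ₗ[ℚ] N) (h : ∀ x m, φ (g x • m) = g x • φ m) : M →ₗ[A] N :=
  { φ with map_smul' := map_smul_of_gen φ h }

@[simp] theorem homOfGen_apply {M N : Type*} [AddCommGroup M] [Module ℚ M] [Module A M]
    [IsScalarTower ℚ A M] [AddCommGroup N] [Module ℚ N] [Module A N] [IsScalarTower ℚ A N]
    (φ : M →ₗ[ℚ] N) (h : ∀ x m, φ (g x • m) = g x • φ m) (m : M) : homOfGen φ h m = φ m := rfl

/-- A representation of the window algebra. -/
structure KRep where
  V : Type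
  [ac : AddCommGroup V]
  [md : Module ℚ V]
  e : Fin 6 → Module.End ℚ V
  th : Fin 4 → Module.End ℚ V
  d : Module.End ℚ V
  h : IsK e th d

attribute [instance] KRep.ac KRep.md

/-- Assignment of generators with vanishing back arrows. -/
def inflF (Z : KRep) : Gen → Module.End ℚ Z.V
  | .e i => Z.e i
  | .th r => Z.th r
  | .d => Z.d
  | .ra _ => 0
  | .rb _ => 0

theorem inflF_isA (Z : KRep) : IsA (inflF Z) where
  isK := Z.h
  ra_e v i := by simp [inflF]
  rb_e v i := by simp [inflF]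
  th_ra r v := by simp [inflF]
  th_rb r v := by fin_cases r <;> fin_cases v <;> simp [inflF]
  d_ra0 := by simp [inflF]
  d_ra1 := by simp [inflF]
  d_rb0 := by simp [inflF]
  d_rb1 := by simp [inflF]
  aa v w := by simp [inflF]
  ab v w := by simp [inflF]
  ba v w := by simp [inflF]
  bb v w := by simp [inflF]

/-- Inflation. -/
def KRep.rep (Z : KRep) : Rep := { V := Z.V, f := inflF Z, h := inflF_isA Z }

/-- Elements of an inflation. -/
def KRep.up (Z : KRep) : Z.V →ₗ[ℚ] Z.rep.V := LinearMap.id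

theorem KRep.gen_up (Z : KRep) (x : Gen) (z : Z.V) : g x • Z.up z = Z.up (inflF Z x z) :=
  Rep.gen_smul _ _ _

/-- Coordinates in an inflation. -/
def KRep.down (Z : KRep) : Z.rep.V →ₗ[ℚ] Z.V := LinearMap.id

@[simp] theorem KRep.down_up (Z : KRep) (z : Z.V) : Z.down (Z.up z) = z := rfl

theorem KRep.up_injective (Z : KRep) : Function.Injective Z.up := fun _ _ h => h

section Identities

variable (Z : KRep) (x : Z.V)

theorem KRep.anti (r s : Fin 4) : Z.th r (Z.th s x) = -Z.th s (Z.th r x) :=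
  LinearMap.congr_fun (Z.h.anti r s) x

theorem KRep.sq (r : Fin 4) : Z.th r (Z.th r x) = 0 := LinearMap.congr_fun (Z.h.sq r) x

theorem KRep.dd : Z.d (Z.d x) = 0 := LinearMap.congr_fun Z.h.dd x

theorem KRep.d_th (r : Fin 4) : Z.d (Z.th r x) = Q Z.th r x - Z.th r (Z.d x) :=
  LinearMap.congr_fun (Z.h.d_th r) x

theorem KRep.orth (i j : Fin 6) : Z.e i (Z.e j x) = if i = j then Z.e i x else 0 := by
  have := LinearMap.congr_fun (Z.h.orth i j) x
  split <;> simp_all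

theorem KRep.total : ∑ i, Z.e i x = x := by
  simpa [LinearMap.sum_apply] using LinearMap.congr_fun Z.h.total x

theorem KRep.th_ex (r : Fin 4) (n : ℕ) : Z.th r (ex Z.e n x) = ex Z.e (n + 1) (Z.th r x) := by
  by_cases h : n < 6
  · have : Z.th r (Z.e ⟨n, h⟩ x) = ex Z.e (n + 1) (Z.th r x) :=
      LinearMap.congr_fun (Z.h.th_e r ⟨n, h⟩) x
    rwa [show ex Z.e n = Z.e ⟨n, h⟩ by simp [ex, h]]
  · have h2 : ¬ n + 1 < 6 := by omega
    simp [ex, h, h2]

theorem KRep.d_ex (n : ℕ) : Z.d (ex Z.e n x) = ex Z.e (n + 1) (Z.d x) := by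
  by_cases h : n < 6
  · have : Z.d (Z.e ⟨n, h⟩ x) = ex Z.e (n + 1) (Z.d x) :=
      LinearMap.congr_fun (Z.h.d_e ⟨n, h⟩) x
    rwa [show ex Z.e n = Z.e ⟨n, h⟩ by simp [ex, h]]
  · have h2 : ¬ n + 1 < 6 := by omega
    simp [ex, h, h2]

theorem KRep.ex_orth (i j : ℕ) :
    ex Z.e i (ex Z.e j x) = if i = j then ex Z.e i x else 0 := by
  by_cases h : i < 6 <;> by_cases h' : j < 6 <;> simp [ex, h, h', Z.orth, Fin.ext_iff]
  all_goals intros; omega

theorem KRep.e_ex (i : Fin 6) : Z.e i = ex Z.e i := by simp [ex]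

end Identities

/-- The four-fold space. -/
abbrev V4 (V : Type) : Type := (V × V) × (V × V)

section Four

variable (V : Type) [AddCommGroup V] [Module ℚ V]

/-- First coordinate. -/
def qa0 : V4 V →ₗ[ℚ] V := LinearMap.fst ℚ V V ∘ₗ LinearMap.fst ℚ (V × V) (V × V)
/-- Second coordinate. -/
def qa1 : V4 V →ₗ[ℚ] V := LinearMap.snd ℚ V V ∘ₗ LinearMap.fst ℚ (V × V) (V × V)
/-- Third coordinate. -/
def qb0 : V4 V →ₗ[ℚ] V := LinearMap.fst ℚ V V ∘ₗ LinearMap.snd ℚ (V × V) (V × V)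
/-- Fourth coordinate. -/
def qb1 : V4 V →ₗ[ℚ] V := LinearMap.snd ℚ V V ∘ₗ LinearMap.snd ℚ (V × V) (V × V)

variable {V}

@[simp] theorem qa0_apply (w : V4 V) : qa0 V w = w.1.1 := rfl
@[simp] theorem qa1_apply (w : V4 V) : qa1 V w = w.1.2 := rfl
@[simp] theorem qb0_apply (w : V4 V) : qb0 V w = w.2.1 := rfl
@[simp] theorem qb1_apply (w : V4 V) : qb1 V w = w.2.2 := rfl

/-- Assemble four linear maps. -/
def mk4 {U : Type} [AddCommGroup U] [Module ℚ U] (a b c d : U →ₗ[ℚ] V) : U →ₗ[ℚ] V4 V :=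
  (a.prod b).prod (c.prod d)

@[simp] theorem mk4_apply {U : Type} [AddCommGroup U] [Module ℚ U] (a b c d : U →ₗ[ℚ] V) (u : U) :
    mk4 a b c d u = ((a u, b u), (c u, d u)) := rfl

end Four

/-- Idempotents of the translated representation. -/
def Fe (Z : KRep) (i : Fin 6) : Module.End ℚ (V4 Z.V) :=
  mk4 (Z.e i ∘ₗ qa0 _) (Z.e i ∘ₗ qa1 _) (ex Z.e (i + 1) ∘ₗ qb0 _) (ex Z.e (i + 1) ∘ₗ qb1 _)

/-- Odd arrows of the translated representation. -/
def Fth (Z : KRep) : Fin 4 → Module.End ℚ (V4 Z.V) :=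
  ![mk4 (-(Z.th 0 ∘ₗ qa0 _)) (-(Z.th 0 ∘ₗ qa1 _) - qb1 _) (Z.th 0 ∘ₗ qb0 _) (Z.th 0 ∘ₗ qb1 _),
    mk4 (-(Z.th 1 ∘ₗ qa0 _) + qb1 _) (-(Z.th 1 ∘ₗ qa1 _)) (Z.th 1 ∘ₗ qb0 _) (Z.th 1 ∘ₗ qb1 _),
    mk4 (-(Z.th 2 ∘ₗ qa0 _)) (-(Z.th 2 ∘ₗ qa1 _) + qb0 _) (Z.th 2 ∘ₗ qb0 _) (Z.th 2 ∘ₗ qb1 _),
    mk4 (-(Z.th 3 ∘ₗ qa0 _) - qb0 _) (-(Z.th 3 ∘ₗ qa1 _)) (Z.th 3 ∘ₗ qb0 _) (Z.th 3 ∘ₗ qb1 _)]

/-- Differential of the translated representation. -/
def Fd (Z : KRep) : Module.End ℚ (V4 Z.V) :=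
  mk4 (-(Z.d ∘ₗ qa0 _) + Z.th 0 ∘ₗ qa0 _ + Z.th 2 ∘ₗ qa1 _)
    (-(Z.d ∘ₗ qa1 _) + Z.th 3 ∘ₗ qa1 _ + Z.th 1 ∘ₗ qa0 _)
    (Z.d ∘ₗ qb0 _ - Z.th 0 ∘ₗ qb0 _ - Z.th 2 ∘ₗ qb1 _)
    (Z.d ∘ₗ qb1 _ - Z.th 3 ∘ₗ qb1 _ - Z.th 1 ∘ₗ qb0 _)

theorem shift_total (Z : KRep) (h0 : Z.e 0 = 0) (x : Z.V) :
    ∑ i : Fin 6, ex Z.e ((i : ℕ) + 1) x = x := by
  conv_rhs => rw [← Z.total x]
  simp only [Fin.sum_univ_six]
  simp [ex, h0]

theorem Fe_ex (Z : KRep) (n : ℕ) (w : V4 Z.V) :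
    ex (Fe Z) n w = ((ex Z.e n w.1.1, ex Z.e n w.1.2),
      (ex Z.e (n + 1) w.2.1, ex Z.e (n + 1) w.2.2)) := by
  by_cases h : n < 6
  · simp [ex, h, Fe]
  · have h2 : ¬ n + 1 < 6 := by omega
    simp [ex, h, h2]
    rfl

theorem F_isK (Z : KRep) (h0 : Z.e 0 = 0) : IsK (Fe Z) (Fth Z) (Fd Z) where
  orth i j := by
    refine LinearMap.ext fun w => ?_
    by_cases h : i = j
    · subst h
      simp [Fe, Z.orth, Z.ex_orth]
    · have : (i : ℕ) ≠ j := fun hh => h (Fin.ext hh)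
      simp [Fe, Z.orth, Z.ex_orth, h, this]
  total := by
    refine LinearMap.ext fun w => ?_
    simp only [LinearMap.sum_apply, Fe, mk4_apply, LinearMap.comp_apply, Module.End.one_apply]
    refine Prod.ext (Prod.ext ?_ ?_) (Prod.ext ?_ ?_) <;>
      simp [Prod.fst_sum, Prod.snd_sum, Z.total, shift_total Z h0]
  th_e r i := by
    refine LinearMap.ext fun w => ?_
    rw [Module.End.mul_apply, Module.End.mul_apply,
      show Fe Z i = ex (Fe Z) i by simp [ex]]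
    fin_cases r <;> simp only [Fe_ex] <;> simp [Fth, Z.th_ex]
  d_e i := by
    refine LinearMap.ext fun w => ?_
    rw [Module.End.mul_apply, Module.End.mul_apply,
      show Fe Z i = ex (Fe Z) i by simp [ex]]
    simp only [Fe_ex]
    simp [Fd, Z.th_ex, Z.d_ex]
  anti r s := by
    refine LinearMap.ext fun w => ?_
    fin_cases r <;> fin_cases s <;>
      simp [Fth, Module.End.mul_apply, Z.sq, Z.anti _ 1 0, Z.anti _ 2 0, Z.anti _ 3 0,
        Z.anti _ 2 1, Z.anti _ 3 1, Z.anti _ 3 2] <;> abel_nf <;> simp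
  sq r := by
    refine LinearMap.ext fun w => ?_
    fin_cases r <;> simp [Fth, Module.End.mul_apply, Z.sq]
  dd := by
    refine LinearMap.ext fun w => ?_
    simp [Fd, Module.End.mul_apply, Z.sq, Z.dd, Z.d_th, Q, Z.anti _ 1 0, Z.anti _ 2 0,
      Z.anti _ 3 0, Z.anti _ 2 1, Z.anti _ 3 1, Z.anti _ 3 2]
    refine ⟨⟨?_, ?_⟩, ?_, ?_⟩ <;> abel
  d_th r := by
    refine LinearMap.ext fun w => ?_
    fin_cases r <;>
      simp [Fd, Fth, Q, Module.End.mul_apply, Z.sq, Z.d_th, Z.anti _ 1 0, Z.anti _ 2 0,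
        Z.anti _ 3 0, Z.anti _ 2 1, Z.anti _ 3 1, Z.anti _ 3 2] <;>
      refine ⟨⟨?_, ?_⟩, ?_, ?_⟩ <;> abel

/-- The translated representation. -/
abbrev F (Z : KRep) (h0 : Z.e 0 = 0) : KRep :=
  { V := V4 Z.V, e := Fe Z, th := Fth Z, d := Fd Z, h := F_isK Z h0 }

end Vale.Agent.P176
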