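import Vale.Agent.P176.Cone

/-!
The translated complex is a cone on the tensor product with the dual vector representation.
-/

set_option linter.unusedSectionVars false
set_option linter.unusedSimpArgs false
set_option linter.unusedTactic false
set_option linter.unreachableTactic false

namespace Vale.Agent.P176

variable (G : Gl)

/-- Operators on pairs. -/
def pairU : Fin 4 → Module.End ℚ (G.L × G.L) :=
  ![(G.u 0 ∘ₗ LinearMap.fst ℚ _ _ - LinearMap.fst ℚ _ _).prod (G.u 0 ∘ₗ LinearMap.snd ℚ _ _),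
    (G.u 1 ∘ₗ LinearMap.fst ℚ _ _).prod (G.u 1 ∘ₗ LinearMap.snd ℚ _ _ - LinearMap.fst ℚ _ _),
    (G.u 2 ∘ₗ LinearMap.fst ℚ _ _ - LinearMap.snd ℚ _ _).prod (G.u 2 ∘ₗ LinearMap.snd ℚ _ _),
    (G.u 3 ∘ₗ LinearMap.fst ℚ _ _).prod (G.u 3 ∘ₗ LinearMap.snd ℚ _ _ - LinearMap.snd ℚ _ _)]

/-- Tensor product with the dual of the vector representation. -/
noncomputable abbrev Pair : Gl where
  L := G.L × G.L
  u := pairU G
  h01 x := by simp [pairU, G.h01, Prod.ext_iff, map_sub] <;> abel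
  h02 x := by simp [pairU, G.h02, Prod.ext_iff, map_sub] <;> abel
  h03 x := by simp [pairU, G.h03, Prod.ext_iff, map_sub]
  h12 x := by simp [pairU, G.h12, Prod.ext_iff, map_sub] <;> (try constructor) <;> abel
  h13 x := by simp [pairU, G.h13, Prod.ext_iff, map_sub] <;> abel
  h23 x := by simp [pairU, G.h23, Prod.ext_iff, map_sub] <;> abel

/-- The intertwiner. -/
def phiP : (Pair G).L →ₗ[ℚ] (Pair G).L :=
  (LinearMap.fst ℚ _ _ + G.u 3 ∘ₗ LinearMap.fst ℚ _ _ - G.u 1 ∘ₗ LinearMap.snd ℚ _ _).prod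
    (LinearMap.snd ℚ _ _ + G.u 0 ∘ₗ LinearMap.snd ℚ _ _ - G.u 2 ∘ₗ LinearMap.fst ℚ _ _)

theorem phiP_comm (r : Fin 4) (x : (Pair G).L) :
    phiP G ((Pair G).u r x) = (Pair G).u r (phiP G x) := by
  fin_cases r <;>
    simp [phiP, pairU, map_sub, map_add, G.h01, G.h02, G.h03, G.h12, G.h13, G.h23,
      Prod.ext_iff] <;> (try constructor) <;> abel

/-- The cone over pairs. -/
noncomputable abbrev Wp : KRep := Cn (Pair G) (phiP G) (phiP_comm G)

/-- The translated complex. -/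
noncomputable abbrev FZ : KRep := F (Z1 G) (Z1_e0 G)

/-- Generators in the lower slot. -/
def gb : (Pair G).L →ₗ[ℚ] (FZ G).V :=
  mk4 0 0 (one16 ∘ₗ LinearMap.fst ℚ _ _) (one16 ∘ₗ LinearMap.snd ℚ _ _)

/-- Generators in the upper slot. -/
def ga : (Pair G).L →ₗ[ℚ] (FZ G).V :=
  mk4 (one16 ∘ₗ LinearMap.fst ℚ _ _) (one16 ∘ₗ LinearMap.snd ℚ _ _) 0 0

theorem mask_one_single (m : ℕ) (l : G.L) :
    mask 1 m (one16 l) = if m = 1 then one16 l else 0 := by
  funext j
  by_cases hj : j = 0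
  · subst hj
    have : deg 0 = 0 := by decide
    rw [mask_apply, this]
    by_cases h : m = 1 <;> simp [h, eq_comm]
  · by_cases h : m = 1 <;> simp [mask_apply, one16, Pi.single_eq_of_ne hj, h]

theorem ex_Z1 (m : ℕ) (x : Fin 16 → G.L) :
    ex (fun i : Fin 6 => (mask 1 i : Module.End ℚ (Fin 16 → G.L))) m x = mask 1 m x := by
  by_cases h : m < 6
  · simp only [ex, dif_pos h]
  · simp only [ex, dif_neg h, mask_zero_of_six le_rfl (by omega : 6 ≤ m)]

theorem gb_ex (n : ℕ) (p : (Pair G).L) :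
    ex (FZ G).e n (gb G p) = if n = 0 then gb G p else 0 := by
  show ex (Fe (Z1 G)) n (gb G p) = _
  rw [Fe_ex]
  by_cases h : n = 0
  · subst h
    simp [gb, ex_Z1, mask_one_single]
  · simp [gb, ex_Z1, mask_one_single, h]

theorem ga_ex (n : ℕ) (p : (Pair G).L) :
    ex (FZ G).e n (ga G p) = if n = 1 then ga G p else 0 := by
  show ex (Fe (Z1 G)) n (ga G p) = _
  rw [Fe_ex]
  by_cases h : n = 1
  · subst h
    simp [ga, ex_Z1, mask_one_single]
  · simp [ga, ex_Z1, mask_one_single, h]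

theorem gb_d (p : (Pair G).L) :
    (FZ G).d (gb G p) =
      ∑ r, (FZ G).th r (gb G ((Pair G).u r p)) + (ga G ∘ₗ phiP G) p := by
  simp [gb, ga, phiP, pairU, Fd, Fth, Fin.sum_univ_four, ceD_one16, Prod.ext_iff, map_sub,
    map_add]
  refine ⟨⟨?_, ?_⟩, ?_, ?_⟩ <;> abel

theorem ga_d (p : (Pair G).L) :
    (FZ G).d (ga G p) = ∑ r, (FZ G).th r (ga G ((Pair G).u r p)) := by
  simp [ga, pairU, Fd, Fth, Fin.sum_univ_four, ceD_one16, Prod.ext_iff, map_sub, map_add]
  refine ⟨?_, ?_⟩ <;> abel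

/-- The comparison map. -/
noncomputable def Psi : (Wp G).V →ₗ[ℚ] (FZ G).V :=
  LinearMap.coprod (fC (FZ G).ng (ga G)) (fC (FZ G) (gb G))

theorem Psi_apply (w : (Wp G).V) :
    Psi G w = (fC (FZ G).ng (ga G) w.1 : (FZ G).V) + fC (FZ G) (gb G) w.2 :=
  LinearMap.coprod_apply _ _ w

theorem Psi_isMap : IsMap (Wp G) (FZ G) (Psi G) where
  he i w := by
    rw [Psi_apply, Psi_apply]
    show fC (FZ G).ng (ga G) (mask 1 (i : ℕ) w.1) + fC (FZ G) (gb G) (mask 0 (i : ℕ) w.2) = _
    rw [KRep.e_ex _ i, fC_e (FZ G).ng (ga G) 1 (ga_ex G), fC_e (FZ G) (gb G) 0 (gb_ex G)]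
    exact (map_add _ _ _).symm
  hth r w := by
    rw [Psi_apply, Psi_apply]
    show fC (FZ G).ng (ga G) (-th16 r w.1) + fC (FZ G) (gb G) (th16 r w.2) = _
    rw [map_neg, fC_th, fC_th]
    show -(-((FZ G).th r _)) + _ = _
    rw [neg_neg]
    exact (map_add _ _ _).symm
  hd w := by
    have h2 := fC_d (FZ G) (Pair G) (gb G) (ga G ∘ₗ phiP G) (gb_d G) w.2
    have h1 := fC_d (FZ G).ng (Pair G) (ga G) 0 (fun l => by
      show -((FZ G).d (ga G l)) = ∑ r, -((FZ G).th r (ga G ((Pair G).u r l))) + 0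
      rw [ga_d, Finset.sum_neg_distrib, add_zero]) w.1
    rw [Psi_apply, Psi_apply]
    show fC (FZ G).ng (ga G) (-ceD (Pair G) w.1 + pw (phiP G) w.2) +
      fC (FZ G) (gb G) (ceD (Pair G) w.2) =
      (FZ G).d (fC (FZ G).ng (ga G) w.1 + fC (FZ G) (gb G) w.2)
    rw [map_add, map_neg, fC_comp, fC_par _ _ w.2, map_add, h2]
    have h1' : (FZ G).d (fC (FZ G).ng (ga G) w.1) =
        -fC (FZ G).ng (ga G) (ceD (Pair G) w.1) := by
      have h3 : fC (FZ G).ng (0 : (Pair G).L →ₗ[ℚ] _) (par w.1) = 0 := by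
        rw [fC_apply]
        exact Finset.sum_eq_zero fun j _ => map_zero _
      rw [h3, add_zero] at h1
      rw [← h1]
      exact (neg_neg _).symm
    rw [h1']
    abel

theorem par_one16 {L : Type} [AddCommGroup L] [Module ℚ L] (l : L) : par (one16 l) = one16 l := by
  funext i
  simp only [par, actM_apply, parM]
  rw [Finset.sum_eq_single 0]
  · by_cases hi : i = 0
    · subst hi
      have : deg 0 = 0 := by decide
      simp [one16, this]
    · simp [one16, hi, Pi.single_eq_of_ne hi]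
  · intro j _ hj; simp [one16, Pi.single_eq_of_ne hj]
  · simp

theorem par_invol {L : Type} [AddCommGroup L] [Module ℚ L] (f : Fin 16 → L) : par (par f) = f := by
  have h := congrArg (actHom (L := L)) par_par
  rw [map_mul, map_one] at h
  exact LinearMap.congr_fun h f

theorem neg_th_par {L : Type} [AddCommGroup L] [Module ℚ L] (r : Fin 4) (x : Fin 16 → L) :
    -th16 r (par x) = par (th16 r x) := (par_th16 r x).symm

theorem pw_th16 {L P : Type} [AddCommGroup L] [Module ℚ L] [AddCommGroup P] [Module ℚ P]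
    (u : L →ₗ[ℚ] P) (r : Fin 4) (f : Fin 16 → L) : pw u (th16 r f) = th16 r (pw u f) :=
  pw_actM u (thM r) f

theorem low_b (b : Fin 16 → (Pair G).L) :
    (fC (FZ G) (gb G) b).2 =
      (par (pw (LinearMap.fst ℚ G.L G.L) b), par (pw (LinearMap.snd ℚ G.L G.L) b)) := by
  refine ext16_induction (fun b => (fC (FZ G) (gb G) b).2 =
    (par (pw (LinearMap.fst ℚ G.L G.L) b), par (pw (LinearMap.snd ℚ G.L G.L) b)))
    ?_ (fun a b ha hb => ?_) (fun l => ?_) (fun r a ha => ?_) b
  · simp only [map_zero]; rfl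
  · simp only [map_add, Prod.snd_add, ha, hb, Prod.mk_add_mk]
  · rw [fC_one, pw_one16, pw_one16, par_one16, par_one16]
    rfl
  · rw [fC_th]
    have h2 : ((FZ G).th r (fC (FZ G) (gb G) a)).2 =
        (-th16 r (fC (FZ G) (gb G) a).2.1, -th16 r (fC (FZ G) (gb G) a).2.2) := by
      fin_cases r <;> rfl
    rw [h2, ha, pw_th16, pw_th16, ← neg_th_par, ← neg_th_par]

theorem up_a (a : Fin 16 → (Pair G).L) :
    (fC (FZ G).ng (ga G) a : (FZ G).V).2 = 0 ∧ (fC (FZ G).ng (ga G) a : (FZ G).V).1 =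
      (par (pw (LinearMap.fst ℚ G.L G.L) a), par (pw (LinearMap.snd ℚ G.L G.L) a)) := by
  refine ext16_induction (fun a => (fC (FZ G).ng (ga G) a : (FZ G).V).2 = 0 ∧
    (fC (FZ G).ng (ga G) a : (FZ G).V).1 =
      (par (pw (LinearMap.fst ℚ G.L G.L) a), par (pw (LinearMap.snd ℚ G.L G.L) a)))
    ?_ (fun a b ha hb => ?_) (fun l => ?_) (fun r a ha => ?_) a
  · simp only [map_zero]; exact ⟨rfl, rfl⟩
  · simp only [map_add, Prod.snd_add, Prod.fst_add, ha.1, ha.2, hb.1, hb.2, Prod.mk_add_mk,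
      add_zero, and_self]
  · rw [fC_one, pw_one16, pw_one16, par_one16, par_one16]
    exact ⟨rfl, rfl⟩
  · rw [fC_th]
    obtain ⟨h1, h2⟩ := ha
    have k2 : (-((FZ G).th r (fC (FZ G).ng (ga G) a))).2 = 0 := by
      rw [Prod.snd_neg]
      have : ((FZ G).th r (fC (FZ G).ng (ga G) a)).2 =
          (-th16 r (fC (FZ G).ng (ga G) a : (FZ G).V).2.1,
            -th16 r (fC (FZ G).ng (ga G) a : (FZ G).V).2.2) := by fin_cases r <;> rfl
      rw [this, h1]
      simp
    refine ⟨k2, ?_⟩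
    show (-((FZ G).th r (fC (FZ G).ng (ga G) a))).1 = _
    rw [Prod.fst_neg]
    have h10 : (fC (FZ G).ng (ga G) a : (FZ G).V).2.1 = 0 := by rw [h1]; rfl
    have h11 : (fC (FZ G).ng (ga G) a : (FZ G).V).2.2 = 0 := by rw [h1]; rfl
    have this : ((FZ G).th r (fC (FZ G).ng (ga G) a)).1 =
        (th16 r (fC (FZ G).ng (ga G) a : (FZ G).V).1.1,
          th16 r (fC (FZ G).ng (ga G) a : (FZ G).V).1.2) := by
      fin_cases r <;> simp [Fth, h10, h11]
    rw [this, h2, pw_th16, pw_th16, ← neg_th_par, ← neg_th_par]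
    rfl

theorem Psi_bij : Function.Bijective (Psi G) := by
  have hpair : ∀ x y : Fin 16 → (Pair G).L, pw (LinearMap.fst ℚ G.L G.L) x = pw (LinearMap.fst ℚ G.L G.L) y →
      pw (LinearMap.snd ℚ G.L G.L) x = pw (LinearMap.snd ℚ G.L G.L) y → x = y :=
    fun x y h1 h2 => funext fun j => Prod.ext (congrFun h1 j) (congrFun h2 j)
  have hinjpar : ∀ x y : Fin 16 → G.L, par x = par y → x = y := fun x y h => by
    rw [← par_invol x, h, par_invol]
  constructor
  · rw [injective_iff_map_eq_zero]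
    intro w hw
    rw [Psi_apply] at hw
    have hb : w.2 = 0 := by
      have h : ((fC (FZ G).ng (ga G) w.1 : (FZ G).V) + fC (FZ G) (gb G) w.2).2 = 0 := by
        rw [hw]; rfl
      rw [Prod.snd_add, (up_a G w.1).1, zero_add, low_b] at h
      refine hpair _ _ ?_ ?_
      · exact (hinjpar _ _ ((congrArg Prod.fst h).trans (map_zero _).symm)).trans (map_zero _).symm
      · exact (hinjpar _ _ ((congrArg Prod.snd h).trans (map_zero _).symm)).trans (map_zero _).symm
    rw [hb, map_zero, add_zero] at hw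
    have h := congrArg Prod.fst hw
    rw [(up_a G w.1).2] at h
    refine Prod.ext (hpair _ _ ?_ ?_) hb
    · exact (hinjpar _ _ ((congrArg Prod.fst h).trans (map_zero _).symm)).trans (map_zero _).symm
    · exact (hinjpar _ _ ((congrArg Prod.snd h).trans (map_zero _).symm)).trans (map_zero _).symm
  · intro t
    obtain ⟨⟨a0, a1⟩, b0, b1⟩ := t
    let b : Fin 16 → (Pair G).L := fun j => (par b0 j, par b1 j)
    let X := fC (FZ G) (gb G) b
    let a : Fin 16 → (Pair G).L := fun j => (par (a0 - X.1.1) j, par (a1 - X.1.2) j)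
    refine ⟨(a, b), ?_⟩
    rw [Psi_apply]
    refine Prod.ext ?_ ?_
    · rw [Prod.fst_add, (up_a G a).2]
      refine Prod.ext ?_ ?_
      · show par (par (a0 - X.1.1)) + X.1.1 = a0
        rw [par_invol, sub_add_cancel]
      · show par (par (a1 - X.1.2)) + X.1.2 = a1
        rw [par_invol, sub_add_cancel]
    · rw [Prod.snd_add, (up_a G a).1, zero_add, low_b]
      exact Prod.ext (par_invol b0) (par_invol b1)

end Vale.Agent.P176
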